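import Vale.Agent.P268.T.W196.W

/-!
# P268, topological half: maps into `V ∖ {0}` from spaces of dimension less than `dim V`
-/

namespace Vale.Agent.P268.T.W196

open Set Filter Topology Metric

section

variable {K : Type*} [MetricSpace K] [CompactSpace K]
variable {V : Type*} [NormedAddCommGroup V] [NormedSpace ℝ V] [FiniteDimensional ℝ V]

/-- A map from a closed subset of a compact metric space of dimension less than `dim V` to
`V ∖ {0}` extends. -/
theorem extend_nonzero (hdim : dimH (univ : Set K) < Module.finrank ℝ V) {S : Set K}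
    (hS : IsClosed S) {g : K → V} (hg : ContinuousOn g S) (hg0 : ∀ z ∈ S, g z ≠ 0) :
    ∃ F : K → V, Continuous F ∧ (∀ z ∈ S, F z = g z) ∧ ∀ z, F z ≠ 0 := by
  classical
  -- Tietze
  obtain ⟨G₀, hG₀⟩ := ContinuousMap.exists_restrict_eq hS
    (⟨S.domRestrict g, continuousOn_iff_continuous_domRestrict.mp hg⟩ : C(S, V))
  have hGg : ∀ z ∈ S, G₀ z = g z := fun z hz => by
    have := congrArg (fun f : C(S, V) => f ⟨z, hz⟩) hG₀
    exact this
  let G : K → V := fun z => G₀ z
  have hG : Continuous G := G₀.continuous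
  -- lower bound on `S`
  obtain ⟨δ, hδ, hδS⟩ : ∃ δ > 0, ∀ z ∈ S, δ ≤ ‖G z‖ := by
    have hSc : CompactSpace S := isCompact_iff_compactSpace.mp hS.isCompact
    obtain ⟨δ, hδ, h⟩ := exists_pos_le (X := S) (f := fun z => ‖G z.1‖)
      (hG.norm.comp continuous_subtype_val) fun z => norm_pos_iff.mpr (by
        show G₀ z.1 ≠ 0
        rw [hGg z.1 z.2]; exact hg0 z.1 z.2)
    exact ⟨δ, hδ, fun z hz => h ⟨z, hz⟩⟩
  -- a generic Lipschitz approximation
  obtain ⟨L, C, hL, hLG⟩ := exists_lip hG (δ := δ / 16) (by positivity)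
  have hd : Dense (range L)ᶜ :=
    dense_compl_of_dimH_lt_finrank (hL.dimH_range_le.trans_lt hdim)
  obtain ⟨w, hw, hwL⟩ := hd.exists_dist_lt 0 (show 0 < δ / 16 by positivity)
  rw [dist_zero_left] at hwL
  have hne : ∀ z, L z - w ≠ 0 := fun z h => hw ⟨z, sub_eq_zero.mp h⟩
  have hclose : ∀ z, ‖(L z - w) - G z‖ ≤ δ / 8 := fun z => by
    have e : (L z - w) - G z = (L z - G z) - w := by abel
    rw [e]
    refine (norm_sub_le _ _).trans ?_
    linarith [hLG z, hwL]
  -- the cut-off
  set φ : K → ℝ := fun z => max 0 (min 1 (2 - 4 * ‖G z‖ / δ)) with hφ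
  have hφc : Continuous φ := by fun_prop
  have hφ0 : ∀ z, 0 ≤ φ z := fun z => le_max_left _ _
  have hφ1 : ∀ z, φ z ≤ 1 := fun z => max_le zero_le_one (min_le_left _ _)
  have hφS : ∀ z, δ / 2 ≤ ‖G z‖ → φ z = 0 := fun z hz => by
    refine max_eq_left ((min_le_right _ _).trans ?_)
    rw [sub_nonpos, le_div_iff₀ hδ]
    linarith
  have hφ2 : ∀ z, ‖G z‖ ≤ δ / 4 → φ z = 1 := fun z hz => by
    have h1 : 1 ≤ 2 - 4 * ‖G z‖ / δ := by
      have : 4 * ‖G z‖ / δ ≤ 1 := by
        rw [div_le_one hδ]; linarith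
      linarith
    rw [hφ]
    simp only
    rw [min_eq_left h1]
    exact max_eq_right zero_le_one
  refine ⟨fun z => G z + φ z • ((L z - w) - G z), ?_, fun z hz => ?_, fun z hz => ?_⟩
  · exact hG.add (hφc.smul ((hL.continuous.sub continuous_const).sub hG))
  · simp only
    rw [hφS z (by linarith [hδS z hz]), zero_smul, add_zero]
    exact hGg z hz
  · simp only at hz
    by_cases h : ‖G z‖ ≤ δ / 4
    · rw [hφ2 z h, one_smul, add_sub_cancel] at hz
      exact hne z hz
    · push Not at h
      have h1 : ‖φ z • ((L z - w) - G z)‖ ≤ δ / 8 := by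
        rw [norm_smul, Real.norm_of_nonneg (hφ0 z)]
        calc φ z * ‖(L z - w) - G z‖ ≤ 1 * (δ / 8) := by
              gcongr
              · exact hφ1 z
              · exact hclose z
          _ = δ / 8 := one_mul _
      have h2 : G z = - (φ z • ((L z - w) - G z)) := eq_neg_of_add_eq_zero_left hz
      rw [h2, norm_neg] at h
      linarith

end

section

variable {V : Type*} [NormedAddCommGroup V] [NormedSpace ℝ V] [FiniteDimensional ℝ V]
variable {W : Type*} [NormedAddCommGroup W] [NormedSpace ℝ W] [FiniteDimensional ℝ W]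

/-- The same for a compact subset of a normed space of dimension less than `dim V`. -/
theorem extend_nonzero_on (hW : Module.finrank ℝ W < Module.finrank ℝ V) {C : Set W}
    (hC : IsCompact C) {S : Set W} (hS : IsClosed S) (hSC : S ⊆ C) {g : W → V}
    (hg : ContinuousOn g S) (hg0 : ∀ z ∈ S, g z ≠ 0) :
    ∃ F : W → V, ContinuousOn F C ∧ (∀ z ∈ S, F z = g z) ∧ ∀ z ∈ C, F z ≠ 0 := by
  classical
  have _ : CompactSpace C := isCompact_iff_compactSpace.mp hC
  have hdim : dimH (univ : Set C) < Module.finrank ℝ V := by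
    have h1 : dimH (univ : Set C) = dimH C := by
      have := (isometry_subtype_coe (s := C)).dimH_image univ
      rw [image_univ, Subtype.range_coe] at this
      exact this.symm
    rw [h1]
    refine (dimH_mono (subset_univ C)).trans_lt ?_
    rw [Real.dimH_univ_eq_finrank]
    exact_mod_cast hW
  have hS' : IsClosed ((↑) ⁻¹' S : Set C) := hS.preimage continuous_subtype_val
  obtain ⟨F, h1, h2, h3⟩ := extend_nonzero (K := C) hdim hS' (g := fun z => g z.1)
    (hg.comp continuous_subtype_val.continuousOn fun z hz => hz) (fun z hz => hg0 z.1 hz)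
  refine ⟨fun w => if h : w ∈ C then F ⟨w, h⟩ else 0, ?_, fun z hz => ?_, fun z hz => ?_⟩
  · rw [continuousOn_iff_continuous_domRestrict]
    have e : C.domRestrict (fun w => if h : w ∈ C then F ⟨w, h⟩ else 0) = F := by
      funext z
      show (if h : z.1 ∈ C then F ⟨z.1, h⟩ else 0) = F z
      rw [dif_pos z.2]
    rw [e]
    exact h1
  · have := h2 ⟨z, hSC hz⟩ hz
    simp only [dif_pos (hSC hz)]
    exact this
  · simp only [dif_pos hz]
    exact h3 ⟨z, hz⟩

end

end Vale.Agent.P268.T.W196
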