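import Vale.Agent.P268.T.W196.E

/-!
# P268, topological half: homotopies of configurations from homotopies of the differences
-/

namespace Vale.Agent.P268.T.W196

open Set Filter Topology Metric

variable {ι : Type*} [Fintype ι] [DecidableEq ι]
variable {V : Type*} [NormedAddCommGroup V] [NormedSpace ℝ V] [FiniteDimensional ℝ V]
variable {W : Type*} [NormedAddCommGroup W] [NormedSpace ℝ W] [FiniteDimensional ℝ W]

/-- The extension theorem on a compact convex subset of a finite-dimensional space. -/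
theorem extend_conf_on {m : ℕ} (hm : 0 < m) (hV : Module.finrank ℝ V = m + 1)
    (hW : Module.finrank ℝ W < 2 * m) {C : Set W} (hC : IsCompact C) (hconv : Convex ℝ C)
    (hne : C.Nonempty) {S : Set W} (hS : IsClosed S) (hSC : S ⊆ C)
    (g : ι → W → V) (hg : ∀ i, ContinuousOn (g i) S)
    (H : ι → ι → W → V) (hH : ∀ i j, i ≠ j → ContinuousOn (H i j) C)
    (hH0 : ∀ i j, i ≠ j → ∀ z ∈ C, H i j z ≠ 0)
    (hHS : ∀ i j, i ≠ j → ∀ z ∈ S, H i j z = g j z - g i z) :
    ∃ F : ι → W → V, (∀ i, ContinuousOn (F i) C) ∧ (∀ i, ∀ z ∈ S, F i z = g i z) ∧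
      ∀ z ∈ C, Function.Injective fun i => F i z := by
  have _ : CompactSpace C := isCompact_iff_compactSpace.mp hC
  have _ : ContractibleSpace C := hconv.contractibleSpace hne
  have hdim : dimH (univ : Set C) < 2 * m := by
    have h1 : dimH (univ : Set C) = dimH C := by
      have := (isometry_subtype_coe (s := C)).dimH_image univ
      rw [image_univ, Subtype.range_coe] at this
      exact this.symm
    rw [h1]
    refine (dimH_mono (subset_univ C)).trans_lt ?_
    rw [Real.dimH_univ_eq_finrank]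
    exact_mod_cast hW
  have hS' : IsClosed ((↑) ⁻¹' S : Set C) := hS.preimage continuous_subtype_val
  obtain ⟨F, h1, h2, h3⟩ := extend_conf (K := C) hm hV hdim hS'
    (fun i z => g i z.1)
    (fun i => (hg i).comp continuous_subtype_val.continuousOn fun z hz => hz)
    (fun i j z => H i j z.1)
    (fun i j hij => (hH i j hij).comp_continuous continuous_subtype_val fun z => z.2)
    (fun i j hij z => hH0 i j hij z.1 z.2)
    (fun i j hij z hz => hHS i j hij z.1 hz)
  classical
  refine ⟨fun i w => if h : w ∈ C then F i ⟨w, h⟩ else 0, fun i => ?_, fun i z hz => ?_,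
    fun z hz i j h => ?_⟩
  · rw [continuousOn_iff_continuous_domRestrict]
    have e : C.domRestrict (fun w => if h : w ∈ C then F i ⟨w, h⟩ else 0) = F i := by
      funext z
      show (if h : z.1 ∈ C then F i ⟨z.1, h⟩ else 0) = F i z
      rw [dif_pos z.2]
    rw [e]
    exact h1 i
  · have := h2 i ⟨z, hSC hz⟩ hz
    simp only [dif_pos (hSC hz)]
    exact this
  · simp only [dif_pos hz] at h
    exact h3 ⟨z, hz⟩ h

/-- Version with the differences for `i < j` only. -/
theorem extend_conf_on_lt [LinearOrder ι] {m : ℕ} (hm : 0 < m)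
    (hV : Module.finrank ℝ V = m + 1)
    (hW : Module.finrank ℝ W < 2 * m) {C : Set W} (hC : IsCompact C) (hconv : Convex ℝ C)
    (hne : C.Nonempty) {S : Set W} (hS : IsClosed S) (hSC : S ⊆ C)
    (g : ι → W → V) (hg : ∀ i, ContinuousOn (g i) S)
    (H : ∀ i j, i < j → ∃ h : W → V, ContinuousOn h C ∧ (∀ z ∈ C, h z ≠ 0) ∧
      ∀ z ∈ S, h z = g j z - g i z) :
    ∃ F : ι → W → V, (∀ i, ContinuousOn (F i) C) ∧ (∀ i, ∀ z ∈ S, F i z = g i z) ∧
      ∀ z ∈ C, Function.Injective fun i => F i z := by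
  classical
  have H' : ∀ i j, i ≠ j → ∃ h : W → V, ContinuousOn h C ∧ (∀ z ∈ C, h z ≠ 0) ∧
      ∀ z ∈ S, h z = g j z - g i z := by
    intro i j hij
    rcases lt_or_gt_of_ne hij with h | h
    · exact H i j h
    · obtain ⟨f, h1, h2, h3⟩ := H j i h
      exact ⟨fun z => - f z, h1.neg, fun z hz => neg_ne_zero.mpr (h2 z hz),
        fun z hz => by
          show - f z = g j z - g i z
          rw [h3 z hz, neg_sub]⟩
  choose h h1 h2 h3 using H'
  refine extend_conf_on hm hV hW hC hconv hne hS hSC g hg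
    (fun i j z => if hij : i ≠ j then h i j hij z else 0) (fun i j hij => ?_)
    (fun i j hij z hz => ?_) (fun i j hij z hz => ?_)
  · simp only [dif_pos hij]; exact h1 i j hij
  · simp only [dif_pos hij]; exact h2 i j hij z hz
  · simp only [dif_pos hij]; exact h3 i j hij z hz

/-- **Homotopy theorem.** Two maps from a compact convex set `C` to the configurations in `V`
which agree on the closed set `A`, and whose pair differences are homotopic in `V ∖ {0}` rel `A`,
are homotopic rel `A`, if `dim C + 1 < 2 (dim V - 1)`. -/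
theorem homotopy_conf {m : ℕ} (hm : 0 < m) (hV : Module.finrank ℝ V = m + 1)
    (hW : Module.finrank ℝ W + 1 < 2 * m) {C : Set W} (hC : IsCompact C) (hconv : Convex ℝ C)
    (hne : C.Nonempty) {A : Set W} (hA : IsClosed A) (hAC : A ⊆ C)
    (c c' : ι → W → V) (hc : ∀ i, ContinuousOn (c i) C) (hc' : ∀ i, ContinuousOn (c' i) C)
    (hAc : ∀ z ∈ A, ∀ i, c i z = c' i z)
    (H : ι → ι → ℝ → W → V)
    (hH : ∀ i j, i ≠ j → ContinuousOn (fun p : ℝ × W => H i j p.1 p.2) (Icc 0 1 ×ˢ C))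
    (hH0 : ∀ i j, i ≠ j → ∀ t ∈ Icc (0 : ℝ) 1, ∀ z ∈ C, H i j t z ≠ 0)
    (hH1 : ∀ i j, i ≠ j → ∀ z ∈ C, H i j 0 z = c j z - c i z)
    (hH2 : ∀ i j, i ≠ j → ∀ z ∈ C, H i j 1 z = c' j z - c' i z)
    (hH3 : ∀ i j, i ≠ j → ∀ t ∈ Icc (0 : ℝ) 1, ∀ z ∈ A, H i j t z = c j z - c i z) :
    ∃ F : ι → ℝ → W → V, (∀ i, ContinuousOn (fun p : ℝ × W => F i p.1 p.2) (Icc 0 1 ×ˢ C)) ∧
      (∀ i, ∀ z ∈ C, F i 0 z = c i z) ∧ (∀ i, ∀ z ∈ C, F i 1 z = c' i z) ∧
      (∀ i, ∀ t ∈ Icc (0 : ℝ) 1, ∀ z ∈ A, F i t z = c i z) ∧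
      ∀ t ∈ Icc (0 : ℝ) 1, ∀ z ∈ C, Function.Injective fun i => F i t z := by
  classical
  -- the set `S`
  let S : Set (ℝ × W) := ({0} ×ˢ C ∪ {1} ×ˢ C) ∪ Icc 0 1 ×ˢ A
  have hS : IsClosed S := ((isClosed_singleton.prod hC.isClosed).union
    (isClosed_singleton.prod hC.isClosed)).union (isClosed_Icc.prod hA)
  have hSC : S ⊆ Icc 0 1 ×ˢ C := by
    rintro ⟨t, z⟩ ((⟨h1, h2⟩ | ⟨h1, h2⟩) | ⟨h1, h2⟩)
    · rw [mem_singleton_iff] at h1
      simp only at h1 h2
      exact ⟨by rw [h1]; exact left_mem_Icc.mpr zero_le_one, h2⟩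
    · rw [mem_singleton_iff] at h1
      simp only at h1 h2
      exact ⟨by rw [h1]; exact right_mem_Icc.mpr zero_le_one, h2⟩
    · exact ⟨h1, hAC h2⟩
  let g : ι → ℝ × W → V := fun i p => if p.1 = 1 then c' i p.2 else c i p.2
  have g0 : ∀ i z, g i (0, z) = c i z := fun i z => by simp [g]
  have g1 : ∀ i z, g i (1, z) = c' i z := fun i z => by simp [g]
  have gA : ∀ i t z, z ∈ A → g i (t, z) = c i z := fun i t z hz => by
    by_cases ht : t = 1
    · subst ht; rw [g1, hAc z hz]
    · simp [g, ht]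
  have hg : ∀ i, ContinuousOn (g i) S := by
    intro i
    have e0 : ContinuousOn (fun p : ℝ × W => c i p.2) (univ ×ˢ C) :=
      (hc i).comp continuous_snd.continuousOn fun p hp => hp.2
    have e1 : ContinuousOn (fun p : ℝ × W => c' i p.2) (univ ×ˢ C) :=
      (hc' i).comp continuous_snd.continuousOn fun p hp => hp.2
    refine ContinuousOn.union_of_isClosed (ContinuousOn.union_of_isClosed ?_ ?_
      (isClosed_singleton.prod hC.isClosed) (isClosed_singleton.prod hC.isClosed)) ?_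
      ((isClosed_singleton.prod hC.isClosed).union
        (isClosed_singleton.prod hC.isClosed)) (isClosed_Icc.prod hA)
    · refine (e0.mono fun p hp => ⟨mem_univ _, hp.2⟩).congr fun p hp => ?_
      obtain ⟨t, z⟩ := p
      have : t = 0 := hp.1
      subst this
      exact g0 i z
    · refine (e1.mono fun p hp => ⟨mem_univ _, hp.2⟩).congr fun p hp => ?_
      obtain ⟨t, z⟩ := p
      have : t = 1 := hp.1
      subst this
      exact g1 i z
    · refine (e0.mono fun p hp => ⟨mem_univ _, hAC hp.2⟩).congr fun p hp => ?_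
      exact gA i p.1 p.2 hp.2
  obtain ⟨F, hF, hFS, hFi⟩ := extend_conf_on (W := ℝ × W) (ι := ι) hm hV
    (by rw [Module.finrank_prod, Module.finrank_self]; omega)
    (isCompact_Icc.prod hC) ((convex_Icc (0 : ℝ) 1).prod hconv)
    ((nonempty_Icc.mpr zero_le_one).prod hne) hS hSC g hg
    (fun i j p => H i j p.1 p.2) hH
    (fun i j hij p hp => hH0 i j hij p.1 hp.1 p.2 hp.2)
    (by
      rintro i j hij ⟨t, z⟩ ((⟨h1, h2⟩ | ⟨h1, h2⟩) | ⟨h1, h2⟩)
      · have : t = 0 := h1
        subst this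
        rw [g0, g0]; exact hH1 i j hij z h2
      · have : t = 1 := h1
        subst this
        rw [g1, g1]; exact hH2 i j hij z h2
      · rw [gA i t z h2, gA j t z h2]
        exact hH3 i j hij t h1 z h2)
  refine ⟨fun i t z => F i (t, z), hF, fun i z hz => ?_, fun i z hz => ?_,
    fun i t ht z hz => ?_, fun t ht z hz => hFi (t, z) ⟨ht, hz⟩⟩
  · rw [← g0 i z]; exact hFS i (0, z) (Or.inl (Or.inl ⟨rfl, hz⟩))
  · rw [← g1 i z]; exact hFS i (1, z) (Or.inl (Or.inr ⟨rfl, hz⟩))
  · rw [← gA i t z hz]; exact hFS i (t, z) (Or.inr ⟨ht, hz⟩)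

end Vale.Agent.P268.T.W196
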