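import Vale.Agent.P268.T.W196.Cube
import Vale.Agent.P268.T.A109.Types

/-!
# P268, topological half: a braid is determined by its pair classes and twists
-/

namespace Vale.Agent.P268.T.W196

open Set Filter Topology Metric
open scoped unitInterval Topology Topology.Homotopy RealInnerProductSpace
open Vale.Agent.P268.H288 Vale.Agent.P268.T.A109 Vale.Agent.P268.T.A109.Fr

theorem isClosed_boundary {M : Type*} [Finite M] : IsClosed (Cube.boundary M) := by
  have h : Cube.boundary M = ⋃ i : M, ({y | y i = 0} ∪ {y | y i = 1}) := by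
    ext y
    simp [Cube.boundary]
  rw [h]
  refine isClosed_iUnion_of_finite fun i => IsClosed.union ?_ ?_
  · exact isClosed_eq (continuous_apply i) continuous_const
  · exact isClosed_eq (continuous_apply i) continuous_const

variable {V : Type*} [NormedAddCommGroup V] [InnerProductSpace ℝ V] [FiniteDimensional ℝ V]
variable {M : Type*} [Fintype M]

/-- Braids with homotopic pair differences and homotopic normals are homotopic. -/
theorem brL_homotopic (φ : Fr V) {m : ℕ} (hm : 2 ≤ m) (hV : Module.finrank ℝ V = m + 2)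
    (hM : Fintype.card M = m) {r : ℕ} (p q : φ.BrL M r)
    (hpair : ∀ i j (h : i < j),
      GenLoop.Homotopic (rlMap (dif h) (φ.dif_mem h) (φ.dif_bx h) (φ.bx_mem r) φ.e0_mem p)
        (rlMap (dif h) (φ.dif_mem h) (φ.dif_bx h) (φ.bx_mem r) φ.e0_mem q))
    (htw : ∀ i,
      GenLoop.Homotopic (rlMap (nrm i) (φ.nrm_mem i) (φ.nrm_bx i) (φ.bx_mem r) φ.h1_mem p)
        (rlMap (nrm i) (φ.nrm_mem i) (φ.nrm_bx i) (φ.bx_mem r) φ.h1_mem q)) :
    GenLoop.Homotopic p q := by
  classical
  have hh0 : φ.h ≠ 0 := fun h => by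
    have := φ.hh
    rw [h, norm_zero] at this
    exact zero_ne_one this
  let H : Submodule ℝ V := (ℝ ∙ φ.h)ᗮ
  have hmemH : ∀ v : V, v ∈ H ↔ ⟪φ.h, v⟫ = 0 := fun v =>
    Submodule.mem_orthogonal_singleton_iff_inner_right
  have hH : Module.finrank ℝ H = m + 1 := by
    have : Fact (Module.finrank ℝ V = (m + 1) + 1) := ⟨hV⟩
    exact Submodule.finrank_orthogonal_span_singleton hh0
  have hp := PP.rel_ofGL p
  have hq := PP.rel_ofGL q
  -- the centres
  let c : C((M → I) × I, Fin r → V) := ⟨fun z => (PP.ofGL p z).1.1,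
    continuous_subtype_val.comp (continuous_fst.comp (PP.ofGL p).continuous)⟩
  let c' : C((M → I) × I, Fin r → V) := ⟨fun z => (PP.ofGL q z).1.1,
    continuous_subtype_val.comp (continuous_fst.comp (PP.ofGL q).continuous)⟩
  -- the faces
  let B : Set ((M → I) × I) := (Cube.boundary M ×ˢ univ) ∪ (univ ×ˢ {(1 : I)})
  have hB : IsClosed B := (isClosed_boundary.prod isClosed_univ).union
    (isClosed_univ.prod isClosed_singleton)
  have hBp : ∀ z ∈ B, PP.ofGL p z = φ.bx r := by
    rintro ⟨y, t⟩ (⟨h1, -⟩ | ⟨-, h2⟩)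
    · exact hp.side y h1 t
    · have h3 : t = 1 := h2
      subst h3
      exact hp.top y
  have hBq : ∀ z ∈ B, PP.ofGL q z = φ.bx r := by
    rintro ⟨y, t⟩ (⟨h1, -⟩ | ⟨-, h2⟩)
    · exact hq.side y h1 t
    · have h3 : t = 1 := h2
      subst h3
      exact hq.top y
  have hRelB : ∀ {X : Type _} [TopologicalSpace X] {A : Set X} {a : X} {f : (M → I) × I → X},
      PP.Rel A a f → ∀ z ∈ B, f z = a := by
    rintro X _ A a f hf ⟨y, t⟩ (⟨h1, -⟩ | ⟨-, h2⟩)
    · exact hf.side y h1 t
    · have h3 : t = 1 := h2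
      subst h3
      exact hf.top y
  obtain ⟨F, F1, F2, F3, F4, F5⟩ := cube_homotopy_mov (ι := Fin r) (n := m + 1) (by omega) hV H
    hH (by omega) hB c c'
    (fun y i => (hmemH _).mpr ((hp.rim y).1 i))
    (fun y i => (hmemH _).mpr ((hq.rim y).1 i))
    (fun _ => φ.base r) continuousOn_const
    (fun z hz => by
      show φ.base r = (PP.ofGL p z).1.1
      rw [hBp z hz]; rfl)
    (fun z hz => by
      show φ.base r = (PP.ofGL q z).1.1
      rw [hBq z hz]; rfl)
    (fun s y hy i => by
      rw [hmemH]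
      exact (φ.bx_mem r).1 i)
    (by
      intro i j hij
      obtain ⟨G, G0, G1, GR⟩ := PP.homotopic_iff.mp (hpair i j hij)
      have hne := cast_sub_ne hij
      have hdif : ∀ a : BX V r, ((j : ℝ) - i) • (dif hij a : V) = a.1.1 j - a.1.1 i := by
        intro a
        rw [dif_apply, smul_smul, mul_inv_cancel₀ hne, one_smul]
      refine ⟨⟨fun z => ((j : ℝ) - i) • (G z : V),
        (continuous_subtype_val.comp G.continuous).const_smul _⟩, fun z => ?_, fun z => ?_,
        fun z => ?_, fun s y => ?_, fun s z hz => ?_⟩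
      · exact smul_ne_zero hne (G z).2
      · show ((j : ℝ) - i) • (G (0, z) : V) = _
        rw [G0]
        exact hdif _
      · show ((j : ℝ) - i) • (G (1, z) : V) = _
        rw [G1]
        exact hdif _
      · refine H.smul_mem _ ((hmemH _).mpr ?_)
        exact (GR s).rim y
      · show ((j : ℝ) - i) • (G (s, z) : V) = φ.base r j - φ.base r i
        have h1 : G (s, z) = φ.e0 := hRelB (GR s) z hz
        rw [h1, ← φ.dif_bx hij]
        exact hdif (φ.bx r))
  have htw' := fun i => PP.homotopic_iff.mp (htw i)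
  choose N N0 N1 NR using htw'
  refine PP.homotopic_iff.mpr ⟨⟨fun z => (⟨F z, F1 z⟩, fun i => N i z), ?_⟩, fun z => ?_,
    fun z => ?_, fun s => ⟨fun y => ⟨fun i => ?_, fun i => ?_⟩, fun y => ?_, fun y hy t => ?_⟩⟩
  · exact (F.continuous.subtype_mk _).prodMk (continuous_pi fun i => (N i).continuous)
  · refine Prod.ext (Subtype.ext (F2 z)) (funext fun i => ?_)
    exact N0 i z
  · refine Prod.ext (Subtype.ext (F3 z)) (funext fun i => ?_)
    exact N1 i z
  · exact (hmemH _).mp (F4 s y i)
  · exact (NR i s).rim y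
  · refine Prod.ext (Subtype.ext (F5 s _ (Or.inr ⟨mem_univ _, rfl⟩))) (funext fun i => ?_)
    exact (NR i s).top y
  · refine Prod.ext (Subtype.ext (F5 s _ (Or.inl ⟨hy, mem_univ _⟩))) (funext fun i => ?_)
    exact (NR i s).side y hy t

/-- **A braid is determined by its pair classes and its twists.** -/
theorem br_injective (φ : Fr V) {m : ℕ} (hm : 2 ≤ m) (hV : Module.finrank ℝ V = m + 2)
    [DecidableEq M] [Nonempty M] (hM : Fintype.card M = m) {r : ℕ} (x y : φ.Br M r)
    (hpair : ∀ i j (h : i < j), φ.clsH M h x = φ.clsH M h y)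
    (htw : ∀ i, φ.twH M i x = φ.twH M i y) : x = y := by
  obtain ⟨p, rfl⟩ := hcl_surj x
  obtain ⟨q, rfl⟩ := hcl_surj y
  rw [hcl_eq_iff]
  exact brL_homotopic φ hm hV hM p q (fun i j h => hcl_eq_iff.mp (hpair i j h))
    (fun i => hcl_eq_iff.mp (htw i))

end Vale.Agent.P268.T.W196
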