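import Vale.Agent.P268.T.W196.BrInj
import Vale.Agent.P268.T.NBr

/-!
# P268, topological half: the block `BlockInj`
-/

namespace Vale.Agent.P268.T.W196

open Vale.Agent.P268.T Vale.Agent.P268.T.A109

/-- **Block B7, injectivity.** -/
theorem blockInj : BlockInj := by
  intro k r x y hpair htw
  exact br_injective (frk k) (m := k + 2) (by omega) (by simp) (by simp) x y hpair htw

end Vale.Agent.P268.T.W196
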