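import Vale.Agent.P268.T.W196.Mov

/-!
# P268, topological half: the homotopy theorem on cubes

`homotopy_rim_mov` for continuous maps on `(M → I) × I`.
-/

namespace Vale.Agent.P268.T.W196

open Set Filter Topology Metric
open scoped unitInterval

set_option linter.unusedSectionVars false

variable {M : Type*} [Fintype M]

/-- The retraction of `(M → ℝ) × ℝ` onto the cube `(M → I) × I`. -/
noncomputable def rc (p : (M → ℝ) × ℝ) : (M → I) × I :=
  (fun i => projIcc 0 1 zero_le_one (p.1 i), projIcc 0 1 zero_le_one p.2)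

/-- The inclusion of the cube. -/
def ic (q : (M → I) × I) : (M → ℝ) × ℝ := (fun i => (q.1 i : ℝ), (q.2 : ℝ))

theorem continuous_rc : Continuous (rc (M := M)) := by
  refine Continuous.prodMk (continuous_pi fun i => ?_) (continuous_projIcc.comp continuous_snd)
  exact continuous_projIcc.comp ((continuous_apply i).comp continuous_fst)

theorem continuous_ic : Continuous (ic (M := M)) := by
  refine Continuous.prodMk (continuous_pi fun i => ?_) (continuous_subtype_val.comp continuous_snd)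
  exact continuous_subtype_val.comp ((continuous_apply i).comp continuous_fst)

@[simp]
theorem rc_ic (q : (M → I) × I) : rc (ic q) = q := by
  refine Prod.ext (funext fun i => ?_) ?_
  · exact projIcc_val zero_le_one (q.1 i)
  · exact projIcc_val zero_le_one q.2

/-- The cube in `M → ℝ`. -/
def cubeSet (M : Type*) : Set (M → ℝ) := Set.pi univ fun _ => Icc 0 1

theorem isCompact_cubeSet : IsCompact (cubeSet M) := isCompact_univ_pi fun _ => isCompact_Icc

theorem convex_cubeSet : Convex ℝ (cubeSet M) := convex_pi fun _ _ => convex_Icc 0 1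

theorem nonempty_cubeSet : (cubeSet M).Nonempty := ⟨fun _ => 0, fun _ _ => by simp⟩

theorem ic_mem (q : (M → I) × I) : ic q ∈ cubeSet M ×ˢ Icc (0 : ℝ) 1 :=
  ⟨fun i _ => (q.1 i).2, q.2.2⟩

theorem ic_rc {p : (M → ℝ) × ℝ} (hp : p ∈ cubeSet M ×ˢ Icc (0 : ℝ) 1) : ic (rc p) = p := by
  refine Prod.ext (funext fun i => ?_) ?_
  · have h := hp.1 i (mem_univ i)
    exact congrArg Subtype.val (projIcc_of_mem zero_le_one h)
  · exact congrArg Subtype.val (projIcc_of_mem zero_le_one hp.2)

variable {ι : Type*} [Fintype ι] [DecidableEq ι]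
variable {V : Type*} [NormedAddCommGroup V] [NormedSpace ℝ V] [FiniteDimensional ℝ V]

/-- The homotopy theorem on the cube, with a prescribed homotopy `δ` on the closed set `B`; the
pair differences are given for `i < j` only. -/
theorem cube_homotopy_mov [LinearOrder ι] {n : ℕ} (hn : 3 ≤ n)
    (hV : Module.finrank ℝ V = n + 1)
    (H : Submodule ℝ V) (hH : Module.finrank ℝ H = n) (hM : Fintype.card M + 1 ≤ n)
    {B : Set ((M → I) × I)} (hB : IsClosed B)
    (c c' : C((M → I) × I, ι → V))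
    (hcr : ∀ y i, c (y, 0) i ∈ H) (hcr' : ∀ y i, c' (y, 0) i ∈ H)
    (δ : I × ((M → I) × I) → ι → V) (hδ : ContinuousOn δ (univ ×ˢ B))
    (hδ0 : ∀ q ∈ B, δ (0, q) = c q) (hδ1 : ∀ q ∈ B, δ (1, q) = c' q)
    (hδr : ∀ s y, (y, (0 : I)) ∈ B → ∀ i, δ (s, (y, 0)) i ∈ H)
    (D : ∀ i j, i < j → ∃ D : C(I × ((M → I) × I), V), (∀ z, D z ≠ 0) ∧
      (∀ q, D (0, q) = c q j - c q i) ∧ (∀ q, D (1, q) = c' q j - c' q i) ∧
      (∀ s y, D (s, (y, 0)) ∈ H) ∧ ∀ s, ∀ q ∈ B, D (s, q) = δ (s, q) j - δ (s, q) i) :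
    ∃ F : C(I × ((M → I) × I), ι → V), (∀ z, Function.Injective (F z)) ∧
      (∀ q, F (0, q) = c q) ∧ (∀ q, F (1, q) = c' q) ∧ (∀ s y i, F (s, (y, 0)) i ∈ H) ∧
      ∀ s, ∀ q ∈ B, F (s, q) = δ (s, q) := by
  classical
  have h0 : projIcc (0 : ℝ) 1 zero_le_one 0 = (0 : I) := projIcc_left _
  have h1 : projIcc (0 : ℝ) 1 zero_le_one 1 = (1 : I) := projIcc_right _
  have D' : ∀ i j, i ≠ j → ∃ D : C(I × ((M → I) × I), V), (∀ z, D z ≠ 0) ∧
      (∀ q, D (0, q) = c q j - c q i) ∧ (∀ q, D (1, q) = c' q j - c' q i) ∧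
      (∀ s y, D (s, (y, 0)) ∈ H) ∧ ∀ s, ∀ q ∈ B, D (s, q) = δ (s, q) j - δ (s, q) i := by
    intro i j hij
    rcases lt_or_gt_of_ne hij with h | h
    · exact D i j h
    · obtain ⟨E, e1, e2, e3, e4, e5⟩ := D j i h
      refine ⟨-E, fun z => ?_, fun q => ?_, fun q => ?_, fun s y => ?_, fun s q hq => ?_⟩
      · show - E z ≠ 0
        exact neg_ne_zero.mpr (e1 z)
      · show - E (0, q) = _
        rw [e2, neg_sub]
      · show - E (1, q) = _
        rw [e3, neg_sub]
      · show - E (s, (y, 0)) ∈ H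
        exact H.neg_mem (e4 s y)
      · show - E (s, q) = _
        rw [e5 s q hq, neg_sub]
  choose E e1 e2 e3 e4 e5 using D'
  -- the retraction with time
  let ρ : ℝ × ((M → ℝ) × ℝ) → I × ((M → I) × I) := fun z =>
    (projIcc 0 1 zero_le_one z.1, rc z.2)
  have hρ : Continuous ρ := (continuous_projIcc.comp continuous_fst).prodMk
    (continuous_rc.comp continuous_snd)
  have hρ0 : ∀ p, ρ (0, p) = (0, rc p) := fun p => by simp only [ρ, h0]
  have hρ1 : ∀ p, ρ (1, p) = (1, rc p) := fun p => by simp only [ρ, h1]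
  have hrc0 : ∀ y : M → ℝ, rc (y, 0) = ((rc (y, 0)).1, (0 : I)) := fun y => by
    simp only [rc, h0]
  let B' : Set ((M → ℝ) × ℝ) := ic '' B
  have hB' : IsClosed B' := (hB.isCompact.image continuous_ic).isClosed
  have hB'C : B' ⊆ cubeSet M ×ˢ Icc (0 : ℝ) 1 := by
    rintro _ ⟨q, -, rfl⟩
    exact ic_mem q
  have hB'B : ∀ p ∈ B', rc p ∈ B := by
    rintro _ ⟨q, hq, rfl⟩
    rw [rc_ic]; exact hq
  obtain ⟨F, f1, f2, f3, f4, f5, f6⟩ := homotopy_rim_mov (ι := ι) (W := M → ℝ) hn hV H hH
    (by rw [Module.finrank_fintype_fun_eq_card]; exact hM)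
    isCompact_cubeSet convex_cubeSet nonempty_cubeSet hB' hB'C
    (fun i p => c (rc p) i) (fun i p => c' (rc p) i)
    (fun i => ((continuous_apply i).comp (c.continuous.comp continuous_rc)).continuousOn)
    (fun i => ((continuous_apply i).comp (c'.continuous.comp continuous_rc)).continuousOn)
    (fun i y hy => by rw [hrc0]; exact hcr _ i)
    (fun i y hy => by rw [hrc0]; exact hcr' _ i)
    (fun i z => δ (ρ z) i)
    (fun i => (continuous_apply i).comp_continuousOn (hδ.comp hρ.continuousOn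
      fun z hz => ⟨mem_univ _, hB'B _ hz.2⟩))
    (fun i p hp => by
      simp only [hρ0]
      rw [hδ0 _ (hB'B p hp)])
    (fun i p hp => by
      simp only [hρ1]
      rw [hδ1 _ (hB'B p hp)])
    (fun i t ht y hy => by
      have h2 : ρ (t, (y, 0)) = (projIcc 0 1 zero_le_one t, ((rc (y, 0)).1, (0 : I))) := by
        show (_, rc (y, 0)) = _
        rw [hrc0]
      have h3 := hB'B _ hy
      rw [hrc0] at h3
      show δ (ρ (t, (y, 0))) i ∈ H
      rw [h2]
      exact hδr _ _ h3 i)
    (fun i j z => if h : i ≠ j then E i j h (ρ z) else 0)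
    (fun i j hij => by
      simp only [dif_pos hij]
      exact ((E i j hij).continuous.comp hρ).continuousOn)
    (fun i j hij z hz => by
      simp only [dif_pos hij]
      exact e1 i j hij _)
    (fun i j hij p hp => by
      simp only [dif_pos hij, hρ0]
      rw [e2])
    (fun i j hij p hp => by
      simp only [dif_pos hij, hρ1]
      rw [e3])
    (fun i j hij t ht y hy => by
      simp only [dif_pos hij]
      have h2 : ρ (t, (y, 0)) = (projIcc 0 1 zero_le_one t, ((rc (y, 0)).1, (0 : I))) := by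
        show (_, rc (y, 0)) = _
        rw [hrc0]
      rw [h2]
      exact e4 i j hij _ _)
    (fun i j hij t ht p hp => by
      simp only [dif_pos hij]
      exact e5 i j hij _ _ (hB'B p hp))
  -- back to the cube
  have hιc : Continuous fun z : I × ((M → I) × I) => ((z.1 : ℝ), ic z.2) :=
    (continuous_subtype_val.comp continuous_fst).prodMk (continuous_ic.comp continuous_snd)
  have hmem : ∀ z : I × ((M → I) × I), ((z.1 : ℝ), ic z.2) ∈
      Icc (0 : ℝ) 1 ×ˢ (cubeSet M ×ˢ Icc (0 : ℝ) 1) := fun z => ⟨z.1.2, ic_mem z.2⟩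
  refine ⟨⟨fun z i => F i ((z.1 : ℝ), ic z.2), continuous_pi fun i =>
    (f1 i).comp_continuous hιc hmem⟩, fun z => ?_, fun q => ?_, fun q => ?_,
    fun s y i => ?_, fun s q hq => ?_⟩
  · intro i j h
    exact f6 _ (hmem z) h
  · funext i
    show F i (((0 : I) : ℝ), ic q) = c q i
    have := f2 i (ic q) (ic_mem q)
    rw [rc_ic] at this
    exact this
  · funext i
    show F i (((1 : I) : ℝ), ic q) = c' q i
    have := f3 i (ic q) (ic_mem q)
    rw [rc_ic] at this
    exact this
  · exact f4 i s s.2 _ (ic_mem (y, 0)).1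
  · funext i
    show F i ((s : ℝ), ic q) = δ (s, q) i
    rw [f5 i s s.2 (ic q) ⟨q, hq, rfl⟩]
    have h2 : ρ ((s : ℝ), ic q) = (s, q) := by
      refine Prod.ext ?_ ?_
      · exact projIcc_val zero_le_one s
      · exact rc_ic q
    show δ (ρ ((s : ℝ), ic q)) i = _
    rw [h2]

end Vale.Agent.P268.T.W196
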