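import Vale.Agent.P268.T.W196.W
import Vale.Agent.P268.T.Push

/-!
# P268, topological half: the extension theorem for configurations

`extend_conf`: a map from a closed subset `S` of a contractible compact metric space `K`,
`dim K < 2 m`, to the configurations in `V`, `dim V = m + 1`, extends over `K` as soon as all the
differences `g j - g i : S → V ∖ {0}` extend over `K`.
-/

namespace Vale.Agent.P268.T.W196

open Set Filter Topology Metric

variable {K : Type*} [MetricSpace K] [CompactSpace K]
variable {ι : Type*} [Fintype ι] [DecidableEq ι]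
variable {V : Type*} [NormedAddCommGroup V] [NormedSpace ℝ V] [FiniteDimensional ℝ V]

/-- Trivialisation of a family of configurations over a contractible compact space. -/
theorem exists_triv {κ : Type*} [Fintype κ] {X : Type*} [TopologicalSpace X] [CompactSpace X]
    [ContractibleSpace X] (a : κ → X → V) (ha : ∀ i, Continuous (a i))
    (hinj : ∀ z, Function.Injective fun i => a i z) :
    ∃ (z₀ : X) (Φ : X → V ≃ₜ V), (Continuous fun p : X × V => Φ p.1 p.2) ∧
      (Continuous fun p : X × V => (Φ p.1).symm p.2) ∧ ∀ z i, Φ z (a i z₀) = a i z := by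
  obtain ⟨z₀, ⟨F⟩⟩ := id_nullhomotopic X
  have hF0 : ∀ z, F (0, z) = z := fun z => by
    simp
  have hF1 : ∀ z, F (1, z) = z₀ := fun z => by
    simp
  let c : X × ℝ → X := fun p => F (unitInterval.symm (projIcc 0 1 zero_le_one p.2), p.1)
  have hc : Continuous c := F.continuous.comp
    (((unitInterval.continuous_symm.comp continuous_projIcc).comp continuous_snd).prodMk
      continuous_fst)
  have hc0 : ∀ z, c (z, 0) = z₀ := fun z => by
    simp only [c]
    rw [projIcc_left]
    simp
  have hc1 : ∀ z, c (z, 1) = z := fun z => by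
    simp only [c]
    rw [projIcc_right]
    simp
  have _ : CompleteSpace V := FiniteDimensional.complete ℝ V
  obtain ⟨Φ, R, h1, h2, -, h4, -, -⟩ := exists_push (V := V) (K := X)
    (fun z τ i => a i (c (z, τ)))
    (by
      refine continuous_pi fun i => ?_
      exact (ha i).comp hc)
    (fun z τ _ => hinj _)
  refine ⟨z₀, fun z => Φ z 1, ?_, ?_, fun z i => ?_⟩
  · exact h1.comp (continuous_fst.prodMk (continuous_const.prodMk continuous_snd))
  · exact h2.comp (continuous_fst.prodMk (continuous_const.prodMk continuous_snd))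
  · have := h4 z 1 ⟨zero_le_one, le_rfl⟩ i
    rwa [hc0, hc1] at this

/-- Lemma W with moving points. -/
theorem lemmaW_moving [ContractibleSpace K] {m : ℕ} (hm : 0 < m)
    (hV : Module.finrank ℝ V = m + 1) (hdim : dimH (univ : Set K) < 2 * m)
    {a : ι → K → V} (ha : ∀ i, Continuous (a i)) (hinj : ∀ z, Function.Injective fun i => a i z)
    {S : Set K} (hS : IsClosed S)
    {G : ι → K → V} (hG : ∀ i, Continuous (G i)) (hSG : ∀ z ∈ S, ∀ i j, G i z = G j z)
    (hGa : ∀ i z, G i z ≠ a i z) :
    ∃ F : K → V, Continuous F ∧ (∀ z ∈ S, ∀ i, F z = G i z) ∧ ∀ z i, F z ≠ a i z := by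
  obtain ⟨z₀, Φ, h1, h2, h3⟩ := exists_triv a ha hinj
  obtain ⟨F, hF, hFS, hFa⟩ := lemmaW (K := K) hm hV hdim (a := fun i => a i z₀) (hinj z₀) hS
    (G := fun i z => (Φ z).symm (G i z))
    (fun i => h2.comp (continuous_id.prodMk (hG i)))
    (fun z hz i j => by rw [hSG z hz i j])
    (fun i z h => hGa i z (by rw [← h3 z i, ← h, Homeomorph.apply_symm_apply]))
  refine ⟨fun z => Φ z (F z), h1.comp (continuous_id.prodMk hF), fun z hz i => ?_,
    fun z i h => hFa z i ?_⟩
  · show Φ z (F z) = G i z
    rw [hFS z hz i, Homeomorph.apply_symm_apply]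
  · have h' : Φ z (F z) = a i z := h
    rw [← h3 z i] at h'
    exact (Φ z).injective h'

/-- **Extension theorem for configurations.** -/
theorem extend_conf [ContractibleSpace K] {m : ℕ} (hm : 0 < m)
    (hV : Module.finrank ℝ V = m + 1) (hdim : dimH (univ : Set K) < 2 * m)
    {S : Set K} (hS : IsClosed S) (g : ι → K → V) (hg : ∀ i, ContinuousOn (g i) S)
    (H : ι → ι → K → V) (hH : ∀ i j, i ≠ j → Continuous (H i j))
    (hH0 : ∀ i j, i ≠ j → ∀ z, H i j z ≠ 0)
    (hHS : ∀ i j, i ≠ j → ∀ z ∈ S, H i j z = g j z - g i z) :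
    ∃ F : ι → K → V, (∀ i, Continuous (F i)) ∧ (∀ i, ∀ z ∈ S, F i z = g i z) ∧
      ∀ z, Function.Injective fun i => F i z := by
  have key : ∀ s : Finset ι, ∃ F : ι → K → V, (∀ i ∈ s, Continuous (F i)) ∧
      (∀ i ∈ s, ∀ z ∈ S, F i z = g i z) ∧ ∀ z, ∀ i ∈ s, ∀ j ∈ s, F i z = F j z → i = j := by
    intro s
    induction s using Finset.induction_on with
    | empty => exact ⟨fun _ _ => 0, by simp, by simp, by simp⟩
    | @insert j s hj ih =>
      obtain ⟨F, hF, hFS, hFi⟩ := ih
      have hnew : ∃ f : K → V, Continuous f ∧ (∀ z ∈ S, f z = g j z) ∧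
          ∀ z, ∀ i ∈ s, f z ≠ F i z := by
        rcases s.eq_empty_or_nonempty with rfl | hs
        · obtain ⟨f, hf⟩ := ContinuousMap.exists_restrict_eq hS
            ⟨S.domRestrict (g j), (continuousOn_iff_continuous_domRestrict.mp (hg j))⟩
          refine ⟨f, f.continuous, fun z hz => ?_, by simp⟩
          have := congrArg (fun φ : C(S, V) => φ ⟨z, hz⟩) hf
          exact this
        · obtain ⟨f, hf, hfS, hfa⟩ := lemmaW_moving (K := K) (ι := s) hm hV hdim
            (a := fun i => F i.1) (fun i => hF i.1 i.2)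
            (fun z i i' h => Subtype.ext (hFi z i.1 i.2 i'.1 i'.2 h)) hS
            (G := fun i z => F i.1 z + H i.1 j z)
            (fun i => (hF i.1 i.2).add (hH i.1 j (fun e => hj (e ▸ i.2))))
            (fun z hz i i' => by
              rw [hFS i.1 i.2 z hz, hFS i'.1 i'.2 z hz,
                hHS i.1 j (fun e => hj (e ▸ i.2)) z hz, hHS i'.1 j (fun e => hj (e ▸ i'.2)) z hz]
              abel)
            (fun i z h => hH0 i.1 j (fun e => hj (e ▸ i.2)) z (by simpa using h))
          obtain ⟨i, hi⟩ := hs
          refine ⟨f, hf, fun z hz => ?_, fun z i hi => hfa z ⟨i, hi⟩⟩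
          rw [hfS z hz ⟨i, hi⟩]
          simp only
          rw [hFS i hi z hz, hHS i j (fun e => hj (e ▸ hi)) z hz]
          abel
      obtain ⟨f, hf, hfS, hfi⟩ := hnew
      refine ⟨Function.update F j f, fun i hi => ?_, fun i hi z hz => ?_,
        fun z i hi i' hi' h => ?_⟩
      · by_cases hij : i = j
        · subst hij; rwa [Function.update_self]
        · rw [Function.update_of_ne hij]
          exact hF i (Finset.mem_of_mem_insert_of_ne hi hij)
      · by_cases hij : i = j
        · subst hij; rw [Function.update_self]; exact hfS z hz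
        · rw [Function.update_of_ne hij]
          exact hFS i (Finset.mem_of_mem_insert_of_ne hi hij) z hz
      · by_cases hij : i = j <;> by_cases hij' : i' = j
        · rw [hij, hij']
        · rw [hij, Function.update_self, Function.update_of_ne hij'] at h
          exact (hfi z i' (Finset.mem_of_mem_insert_of_ne hi' hij') h).elim
        · rw [hij', Function.update_self, Function.update_of_ne hij] at h
          exact (hfi z i (Finset.mem_of_mem_insert_of_ne hi hij) h.symm).elim
        · rw [Function.update_of_ne hij, Function.update_of_ne hij'] at h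
          exact hFi z i (Finset.mem_of_mem_insert_of_ne hi hij) i'
            (Finset.mem_of_mem_insert_of_ne hi' hij') h
  obtain ⟨F, h1, h2, h3⟩ := key Finset.univ
  exact ⟨F, fun i => h1 i (Finset.mem_univ i), fun i => h2 i (Finset.mem_univ i),
    fun z i j h => h3 z i (Finset.mem_univ i) j (Finset.mem_univ j) h⟩

end Vale.Agent.P268.T.W196
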