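import Mathlib

/-!
# P268, topological half: Lipschitz approximation and small generic translations
-/

namespace Vale.Agent.P268.T.W196

open Set Filter Topology Metric

section Lip

variable {K : Type*} [MetricSpace K] [CompactSpace K]

/-- The algebra of real valued Lipschitz functions on a compact metric space. -/
noncomputable def lipAlg (K : Type*) [MetricSpace K] [CompactSpace K] : Subalgebra ℝ C(K, ℝ) where
  carrier := {f | ∃ C, LipschitzWith C f}
  mul_mem' := by
    rintro f g ⟨C, hf⟩ ⟨D, hg⟩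
    refine ⟨Real.toNNReal (‖f‖ * D + ‖g‖ * C), LipschitzWith.of_dist_le_mul fun x y => ?_⟩
    have h0 : 0 ≤ ‖f‖ * D + ‖g‖ * C := by positivity
    rw [Real.coe_toNNReal _ h0, Real.dist_eq]
    have h1 := hf.dist_le_mul x y
    have h2 := hg.dist_le_mul x y
    rw [Real.dist_eq] at h1 h2
    have h3 : |f x| ≤ ‖f‖ := f.norm_coe_le_norm x
    have h4 : |g y| ≤ ‖g‖ := g.norm_coe_le_norm y
    have h5 : (f * g) x - (f * g) y = f x * (g x - g y) + g y * (f x - f y) := by
      simp only [ContinuousMap.mul_apply]; ring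
    rw [h5]
    calc |f x * (g x - g y) + g y * (f x - f y)|
        ≤ |f x| * |g x - g y| + |g y| * |f x - f y| := by
          refine (abs_add_le _ _).trans ?_
          rw [abs_mul, abs_mul]
      _ ≤ ‖f‖ * (D * dist x y) + ‖g‖ * (C * dist x y) := by gcongr
      _ = (‖f‖ * D + ‖g‖ * C) * dist x y := by ring
  add_mem' := by
    rintro f g ⟨C, hf⟩ ⟨D, hg⟩
    exact ⟨C + D, hf.add hg⟩
  algebraMap_mem' r := ⟨0, LipschitzWith.const r⟩

theorem lipAlg_separates : (lipAlg K).SeparatesPoints := by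
  intro x y hxy
  refine ⟨fun z => dist z x, ⟨⟨fun z => dist z x, by fun_prop⟩, ⟨1, ?_⟩, rfl⟩, ?_⟩
  · exact LipschitzWith.dist_left x
  · simpa using dist_ne_zero.mpr hxy.symm |>.symm

theorem exists_lip_real {f : K → ℝ} (hf : Continuous f) {δ : ℝ} (hδ : 0 < δ) :
    ∃ (g : K → ℝ) (C : NNReal), LipschitzWith C g ∧ ∀ z, |g z - f z| ≤ δ := by
  obtain ⟨⟨g, C, hg⟩, h⟩ :=
    ContinuousMap.exists_mem_subalgebra_near_continuousMap_of_separatesPoints (lipAlg K)
      lipAlg_separates ⟨f, hf⟩ δ hδ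
  refine ⟨g, C, hg, fun z => ?_⟩
  have h1 := (g - ⟨f, hf⟩ : C(K, ℝ)).norm_coe_le_norm z
  exact h1.trans h.le

variable {H : Type*} [NormedAddCommGroup H] [NormedSpace ℝ H] [FiniteDimensional ℝ H]

/-- Lipschitz approximation of continuous maps into a finite-dimensional space. -/
theorem exists_lip {f : K → H} (hf : Continuous f) {δ : ℝ} (hδ : 0 < δ) :
    ∃ (g : K → H) (C : NNReal), LipschitzWith C g ∧ ∀ z, ‖g z - f z‖ ≤ δ := by
  let e : H ≃L[ℝ] (Fin (Module.finrank ℝ H) → ℝ) :=
    ContinuousLinearEquiv.ofFinrankEq (by simp)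
  set M := ‖(e.symm : (Fin (Module.finrank ℝ H) → ℝ) →L[ℝ] H)‖ + 1 with hM
  have hM0 : 0 < M := by positivity
  have h1 : ∀ i, ∃ (g : K → ℝ) (C : NNReal), LipschitzWith C g ∧
      ∀ z, |g z - e (f z) i| ≤ δ / M := fun i =>
    exists_lip_real (f := fun z => e (f z) i)
      ((continuous_apply i).comp (e.continuous.comp hf)) (by positivity)
  choose g C hg hgf using h1
  have h2 : LipschitzWith (Finset.univ.sup C) (fun z i => g i z) := by
    refine LipschitzWith.of_dist_le_mul fun x y => ?_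
    rw [dist_pi_le_iff (by positivity)]
    intro i
    exact ((hg i).weaken (Finset.le_sup (Finset.mem_univ i))).dist_le_mul x y
  refine ⟨fun z => e.symm fun i => g i z, _,
    (e.symm : (Fin (Module.finrank ℝ H) → ℝ) →L[ℝ] H).lipschitz.comp h2, fun z => ?_⟩
  have h3 : e.symm (fun i => g i z) - f z = e.symm ((fun i => g i z) - e (f z)) := by
    rw [map_sub, e.symm_apply_apply]
  rw [h3]
  have h4 : ‖(fun i => g i z) - e (f z)‖ ≤ δ / M := by
    rw [pi_norm_le_iff_of_nonneg (by positivity)]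
    intro i
    exact hgf i z
  calc ‖e.symm ((fun i => g i z) - e (f z))‖
      ≤ ‖(e.symm : (Fin (Module.finrank ℝ H) → ℝ) →L[ℝ] H)‖ * ‖(fun i => g i z) - e (f z)‖ :=
        (e.symm : (Fin (Module.finrank ℝ H) → ℝ) →L[ℝ] H).le_opNorm _
    _ ≤ M * (δ / M) := by
        gcongr
        linarith
    _ = δ := by field_simp

end Lip

section Generic

variable {H : Type*} [NormedAddCommGroup H] [NormedSpace ℝ H] [FiniteDimensional ℝ H]

theorem isOpenMap_pair {ι : Type*} [Fintype ι] [DecidableEq ι] {i j : ι} (hij : i ≠ j)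
    (b c : H) : IsOpenMap fun v : ι → H => (b - v i, c - v j) := by
  have h1 : IsOpenMap fun v : ι → H => (v i, v j) := by
    let φ : (ι → H) →L[ℝ] H × H :=
      (ContinuousLinearMap.proj (R := ℝ) (φ := fun _ : ι => H) i).prod
        (ContinuousLinearMap.proj (R := ℝ) (φ := fun _ : ι => H) j)
    have hφ : Function.Surjective φ := by
      rintro ⟨x, y⟩
      refine ⟨fun k => if k = i then x else y, ?_⟩
      simp [φ, hij.symm]
    exact φ.isOpenMap hφ
  have h2 : IsOpenMap fun p : H × H => (b - p.1, c - p.2) :=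
    ((Homeomorph.subLeft b).prodCongr (Homeomorph.subLeft c)).isOpenMap
  exact h2.comp h1

/-- Small generic translations. -/
theorem exists_generic {ι : Type*} [Fintype ι] [DecidableEq ι] (b : ι → H)
    (M : ι → ι → Set (H × H)) (hM : ∀ i j, IsClosed (M i j)) (hM' : ∀ i j, Dense (M i j)ᶜ)
    {δ : ℝ} (hδ : 0 < δ) :
    ∃ v : ι → H, (∀ i, ‖v i‖ < δ) ∧ ∀ i j, i ≠ j → (b i - v i, b j - v j) ∉ M i j := by
  let U : {p : ι × ι // p.1 ≠ p.2} → Set (ι → H) := fun p =>
    (fun v : ι → H => (b p.1.1 - v p.1.1, b p.1.2 - v p.1.2)) ⁻¹' (M p.1.1 p.1.2)ᶜ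
  have hUo : ∀ p, IsOpen (U p) := fun p =>
    (hM _ _).isOpen_compl.preimage (by fun_prop)
  have hUd : ∀ p, Dense (U p) := fun p =>
    (hM' _ _).preimage (isOpenMap_pair p.2 _ _)
  have hd : Dense (⋂ p, U p) := dense_iInter_of_isOpen hUo hUd
  obtain ⟨v, hv, hv'⟩ := hd.inter_open_nonempty (ball 0 δ) isOpen_ball ⟨0, by simpa using hδ⟩
  refine ⟨v, fun i => ?_, fun i j hij => ?_⟩
  · have h1 : ‖v‖ < δ := by simpa using hv
    exact (norm_le_pi_norm v i).trans_lt h1
  · exact mem_iInter.mp hv' ⟨(i, j), hij⟩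

/-- The image of a low dimensional compact metric space under a pair of Lipschitz maps. -/
theorem pair_closed_dense {K : Type*} [MetricSpace K] [CompactSpace K]
    (hdim : dimH (univ : Set K) < 2 * Module.finrank ℝ H) {f g : K → H} {C D : NNReal}
    (hf : LipschitzWith C f) (hg : LipschitzWith D g) :
    IsClosed (range fun z => (f z, g z)) ∧ Dense (range fun z => (f z, g z))ᶜ := by
  constructor
  · exact (isCompact_range (hf.continuous.prodMk hg.continuous)).isClosed
  · have h1 : LipschitzWith (max C D) fun z => (f z, g z) := hf.prodMk hg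
    refine dense_compl_of_dimH_lt_finrank (h1.dimH_range_le.trans_lt ?_)
    rw [Module.finrank_prod]
    push_cast
    rwa [← two_mul]

end Generic

end Vale.Agent.P268.T.W196
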