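import Vale.Agent.P268.T.W196.Rim

/-!
# P268, topological half: homotopies of braids with moving faces
-/

namespace Vale.Agent.P268.T.W196

open Set Filter Topology Metric

variable {ι : Type*} [Fintype ι] [DecidableEq ι]
variable {V : Type*} [NormedAddCommGroup V] [NormedSpace ℝ V] [FiniteDimensional ℝ V]
variable {W : Type*} [NormedAddCommGroup W] [NormedSpace ℝ W] [FiniteDimensional ℝ W]

/-- **Homotopy theorem with a moving boundary.** The homotopy is prescribed on the closed set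
`A`. -/
theorem homotopy_conf_mov {m : ℕ} (hm : 0 < m) (hV : Module.finrank ℝ V = m + 1)
    (hW : Module.finrank ℝ W + 1 < 2 * m) {C : Set W} (hC : IsCompact C) (hconv : Convex ℝ C)
    (hne : C.Nonempty) {A : Set W} (hA : IsClosed A) (hAC : A ⊆ C)
    (c c' : ι → W → V) (hc : ∀ i, ContinuousOn (c i) C) (hc' : ∀ i, ContinuousOn (c' i) C)
    (δ : ι → ℝ × W → V) (hδ : ∀ i, ContinuousOn (δ i) (Icc 0 1 ×ˢ A))
    (hδ0 : ∀ i, ∀ z ∈ A, δ i (0, z) = c i z) (hδ1 : ∀ i, ∀ z ∈ A, δ i (1, z) = c' i z)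
    (D : ι → ι → ℝ × W → V)
    (hD : ∀ i j, i ≠ j → ContinuousOn (D i j) (Icc 0 1 ×ˢ C))
    (hD0 : ∀ i j, i ≠ j → ∀ p ∈ Icc (0 : ℝ) 1 ×ˢ C, D i j p ≠ 0)
    (hD1 : ∀ i j, i ≠ j → ∀ z ∈ C, D i j (0, z) = c j z - c i z)
    (hD2 : ∀ i j, i ≠ j → ∀ z ∈ C, D i j (1, z) = c' j z - c' i z)
    (hDa : ∀ i j, i ≠ j → ∀ t ∈ Icc (0 : ℝ) 1, ∀ z ∈ A,
      D i j (t, z) = δ j (t, z) - δ i (t, z)) :
    ∃ F : ι → ℝ × W → V, (∀ i, ContinuousOn (F i) (Icc 0 1 ×ˢ C)) ∧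
      (∀ i, ∀ z ∈ C, F i (0, z) = c i z) ∧ (∀ i, ∀ z ∈ C, F i (1, z) = c' i z) ∧
      (∀ i, ∀ t ∈ Icc (0 : ℝ) 1, ∀ z ∈ A, F i (t, z) = δ i (t, z)) ∧
      ∀ p ∈ Icc (0 : ℝ) 1 ×ˢ C, Function.Injective fun i => F i p := by
  classical
  have h0I : (0 : ℝ) ∈ Icc (0 : ℝ) 1 := left_mem_Icc.mpr zero_le_one
  have h1I : (1 : ℝ) ∈ Icc (0 : ℝ) 1 := right_mem_Icc.mpr zero_le_one
  let S : Set (ℝ × W) := ({0} ×ˢ C ∪ {1} ×ˢ C) ∪ Icc 0 1 ×ˢ A
  have hS : IsClosed S := ((isClosed_singleton.prod hC.isClosed).union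
    (isClosed_singleton.prod hC.isClosed)).union (isClosed_Icc.prod hA)
  have hSC : S ⊆ Icc 0 1 ×ˢ C := by
    rintro ⟨t, z⟩ ((⟨h1, h2⟩ | ⟨h1, h2⟩) | ⟨h1, h2⟩)
    · rw [mem_singleton_iff] at h1
      simp only at h1 h2
      subst h1
      exact ⟨h0I, h2⟩
    · rw [mem_singleton_iff] at h1
      simp only at h1 h2
      subst h1
      exact ⟨h1I, h2⟩
    · exact ⟨h1, hAC h2⟩
  let g : ι → ℝ × W → V := fun i p => if p.1 = 0 then c i p.2 else
    if p.1 = 1 then c' i p.2 else δ i p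
  have g0 : ∀ i z, g i (0, z) = c i z := fun i z => by simp [g]
  have g1 : ∀ i z, g i (1, z) = c' i z := fun i z => by simp [g]
  have gA : ∀ i t z, z ∈ A → g i (t, z) = δ i (t, z) := fun i t z hz => by
    by_cases ht : t = 0
    · subst ht; rw [g0, hδ0 i z hz]
    · by_cases ht' : t = 1
      · subst ht'; rw [g1, hδ1 i z hz]
      · simp [g, ht, ht']
  have hg : ∀ i, ContinuousOn (g i) S := by
    intro i
    have e0 : ContinuousOn (fun p : ℝ × W => c i p.2) (univ ×ˢ C) :=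
      (hc i).comp continuous_snd.continuousOn fun p hp => hp.2
    have e1 : ContinuousOn (fun p : ℝ × W => c' i p.2) (univ ×ˢ C) :=
      (hc' i).comp continuous_snd.continuousOn fun p hp => hp.2
    refine ContinuousOn.union_of_isClosed (ContinuousOn.union_of_isClosed ?_ ?_
      (isClosed_singleton.prod hC.isClosed) (isClosed_singleton.prod hC.isClosed)) ?_
      ((isClosed_singleton.prod hC.isClosed).union
        (isClosed_singleton.prod hC.isClosed)) (isClosed_Icc.prod hA)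
    · refine (e0.mono fun p hp => ⟨mem_univ _, hp.2⟩).congr fun p hp => ?_
      obtain ⟨t, z⟩ := p
      have : t = 0 := hp.1
      subst this
      exact g0 i z
    · refine (e1.mono fun p hp => ⟨mem_univ _, hp.2⟩).congr fun p hp => ?_
      obtain ⟨t, z⟩ := p
      have : t = 1 := hp.1
      subst this
      exact g1 i z
    · exact (hδ i).congr fun p hp => gA i p.1 p.2 hp.2
  obtain ⟨F, hF, hFS, hFi⟩ := extend_conf_on (W := ℝ × W) (ι := ι) hm hV
    (by rw [Module.finrank_prod, Module.finrank_self]; omega)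
    (isCompact_Icc.prod hC) ((convex_Icc (0 : ℝ) 1).prod hconv)
    ((nonempty_Icc.mpr zero_le_one).prod hne) hS hSC g hg
    D hD hD0
    (fun i j hij p hp => by
      obtain ⟨t, z⟩ := p
      rcases hp with ((⟨h1, h2⟩ | ⟨h1, h2⟩) | ⟨h1, h2⟩)
      · rw [mem_singleton_iff] at h1
        simp only at h1 h2
        subst h1
        rw [g0, g0, hD1 i j hij z h2]
      · rw [mem_singleton_iff] at h1
        simp only at h1 h2
        subst h1
        rw [g1, g1, hD2 i j hij z h2]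
      · rw [gA i t z h2, gA j t z h2, hDa i j hij t h1 z h2])
  refine ⟨F, hF, fun i z hz => ?_, fun i z hz => ?_, fun i t ht z hz => ?_, hFi⟩
  · rw [hFS i (0, z) (Or.inl (Or.inl ⟨rfl, hz⟩)), g0]
  · rw [hFS i (1, z) (Or.inl (Or.inr ⟨rfl, hz⟩)), g1]
  · rw [hFS i (t, z) (Or.inr ⟨ht, hz⟩), gA i t z hz]

/-- **Homotopy theorem for braids with a rim face and moving other faces.** The base is
`C × [0,1]`, the rim face is `C × {0}`, where the configurations are in the hyperplane `H`; on the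
closed set `B` the homotopy `δ` is prescribed. If all the pair differences of `c` and `c'` are
homotopic (with these face conditions) then `c` and `c'` are homotopic. -/
theorem homotopy_rim_mov {n : ℕ} (hn : 3 ≤ n) (hV : Module.finrank ℝ V = n + 1)
    (H : Submodule ℝ V) (hH : Module.finrank ℝ H = n) (hW : Module.finrank ℝ W + 1 ≤ n)
    {C : Set W} {B : Set (W × ℝ)}
    (hC : IsCompact C) (hconv : Convex ℝ C) (hne : C.Nonempty)
    (hB : IsClosed B) (hBC : B ⊆ C ×ˢ Icc (0 : ℝ) 1)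
    (c c' : ι → W × ℝ → V) (hc : ∀ i, ContinuousOn (c i) (C ×ˢ Icc 0 1))
    (hc' : ∀ i, ContinuousOn (c' i) (C ×ˢ Icc 0 1))
    (hcr : ∀ i, ∀ y ∈ C, c i (y, 0) ∈ H) (hcr' : ∀ i, ∀ y ∈ C, c' i (y, 0) ∈ H)
    (δ : ι → ℝ × (W × ℝ) → V) (hδ : ∀ i, ContinuousOn (δ i) (Icc 0 1 ×ˢ B))
    (hδ0 : ∀ i, ∀ p ∈ B, δ i (0, p) = c i p) (hδ1 : ∀ i, ∀ p ∈ B, δ i (1, p) = c' i p)
    (hδr : ∀ i, ∀ t ∈ Icc (0 : ℝ) 1, ∀ y, (y, (0 : ℝ)) ∈ B → δ i (t, (y, 0)) ∈ H)
    (D : ι → ι → ℝ × (W × ℝ) → V)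
    (hD : ∀ i j, i ≠ j → ContinuousOn (D i j) (Icc 0 1 ×ˢ (C ×ˢ Icc 0 1)))
    (hD0 : ∀ i j, i ≠ j → ∀ p ∈ Icc (0 : ℝ) 1 ×ˢ (C ×ˢ Icc (0 : ℝ) 1), D i j p ≠ 0)
    (hD1 : ∀ i j, i ≠ j → ∀ p ∈ C ×ˢ Icc (0 : ℝ) 1, D i j (0, p) = c j p - c i p)
    (hD2 : ∀ i j, i ≠ j → ∀ p ∈ C ×ˢ Icc (0 : ℝ) 1, D i j (1, p) = c' j p - c' i p)
    (hDr : ∀ i j, i ≠ j → ∀ t ∈ Icc (0 : ℝ) 1, ∀ y ∈ C, D i j (t, (y, 0)) ∈ H)
    (hDa : ∀ i j, i ≠ j → ∀ t ∈ Icc (0 : ℝ) 1, ∀ p ∈ B, D i j (t, p) = δ j (t, p) - δ i (t, p)) :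
    ∃ F : ι → ℝ × (W × ℝ) → V,
      (∀ i, ContinuousOn (F i) (Icc 0 1 ×ˢ (C ×ˢ Icc 0 1))) ∧
      (∀ i, ∀ p ∈ C ×ˢ Icc (0 : ℝ) 1, F i (0, p) = c i p) ∧
      (∀ i, ∀ p ∈ C ×ˢ Icc (0 : ℝ) 1, F i (1, p) = c' i p) ∧
      (∀ i, ∀ t ∈ Icc (0 : ℝ) 1, ∀ y ∈ C, F i (t, (y, 0)) ∈ H) ∧
      (∀ i, ∀ t ∈ Icc (0 : ℝ) 1, ∀ p ∈ B, F i (t, p) = δ i (t, p)) ∧
      ∀ p ∈ Icc (0 : ℝ) 1 ×ˢ (C ×ˢ Icc (0 : ℝ) 1), Function.Injective fun i => F i p := by
  classical
  have hHtop : H ≠ ⊤ := by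
    rintro rfl
    rw [finrank_top] at hH
    omega
  have h0I : (0 : ℝ) ∈ Icc (0 : ℝ) 1 := left_mem_Icc.mpr zero_le_one
  have h1I : (1 : ℝ) ∈ Icc (0 : ℝ) 1 := right_mem_Icc.mpr zero_le_one
  -- a retraction onto `H`
  obtain ⟨π, hπ⟩ := LinearMap.exists_leftInverse_of_injective H.subtype H.ker_subtype
  have hπc : Continuous π := LinearMap.continuous_of_finiteDimensional π
  have hπH : ∀ v ∈ H, ((π v : H) : V) = v := fun v hv => by
    have := congrArg (fun f => f ⟨v, hv⟩) hπ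
    simp only [LinearMap.comp_apply, Submodule.subtype_apply, LinearMap.id_apply] at this
    rw [this]
  have hπ0 : ∀ v ∈ H, v ≠ 0 → π v ≠ 0 := fun v hv h0 h1 => h0 (by
    rw [← hπH v hv, h1]; rfl)
  -- the rim
  let A : Set W := {y | (y, (0 : ℝ)) ∈ B}
  have hA : IsClosed A := hB.preimage (Continuous.prodMk continuous_id continuous_const)
  have hAC : A ⊆ C := fun y hy => (hBC hy).1
  have hrimc : ∀ (f : W × ℝ → V), ContinuousOn f (C ×ˢ Icc 0 1) →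
      ContinuousOn (fun y => π (f (y, 0))) C := fun f hf =>
    hπc.comp_continuousOn (hf.comp (Continuous.prodMk continuous_id continuous_const).continuousOn
      fun y hy => ⟨hy, h0I⟩)
  obtain ⟨F₀, hF₀, hF₀0, hF₀1, hF₀A, hF₀i⟩ := homotopy_conf_mov (ι := ι) (V := H) (W := W)
    (m := n - 1) (by omega) (by omega) (by omega) hC hconv hne hA hAC
    (fun i y => π (c i (y, 0))) (fun i y => π (c' i (y, 0)))
    (fun i => hrimc _ (hc i)) (fun i => hrimc _ (hc' i))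
    (fun i p => π (δ i (p.1, (p.2, 0))))
    (fun i => hπc.comp_continuousOn ((hδ i).comp
      (f := fun p : ℝ × W => ((p.1, (p.2, (0 : ℝ))) : ℝ × (W × ℝ)))
      (by fun_prop) fun p hp => ⟨hp.1, hp.2⟩))
    (fun i y hy => by simp only [hδ0 i (y, 0) hy])
    (fun i y hy => by simp only [hδ1 i (y, 0) hy])
    (fun i j p => π (D i j (p.1, (p.2, 0))))
    (fun i j hij => hπc.comp_continuousOn ((hD i j hij).comp
      (f := fun p : ℝ × W => ((p.1, (p.2, (0 : ℝ))) : ℝ × (W × ℝ)))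
      (by fun_prop) fun p hp => ⟨hp.1, hp.2, h0I⟩))
    (fun i j hij p hp => hπ0 _ (hDr i j hij p.1 hp.1 p.2 hp.2)
      (hD0 i j hij _ ⟨hp.1, hp.2, h0I⟩))
    (fun i j hij y hy => by
      simp only
      rw [hD1 i j hij (y, 0) ⟨hy, h0I⟩, map_sub])
    (fun i j hij y hy => by
      simp only
      rw [hD2 i j hij (y, 0) ⟨hy, h0I⟩, map_sub])
    (fun i j hij t ht y hy => by
      simp only
      rw [hDa i j hij t ht (y, 0) hy, map_sub])
  -- the closed set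
  let K₀ : Set (W × ℝ) := C ×ˢ Icc 0 1
  have hK₀ : IsClosed K₀ := hC.isClosed.prod isClosed_Icc
  have hR : IsClosed (C ×ˢ {(0 : ℝ)}) := hC.isClosed.prod isClosed_singleton
  let S : Set (ℝ × (W × ℝ)) := ({0} ×ˢ K₀ ∪ {1} ×ˢ K₀) ∪
    (Icc 0 1 ×ˢ B ∪ Icc 0 1 ×ˢ (C ×ˢ {(0 : ℝ)}))
  have hS : IsClosed S := ((isClosed_singleton.prod hK₀).union (isClosed_singleton.prod hK₀)).union
    ((isClosed_Icc.prod hB).union (isClosed_Icc.prod hR))
  have hSK : S ⊆ Icc 0 1 ×ˢ K₀ := by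
    rintro ⟨t, p⟩ ((⟨h1, h2⟩ | ⟨h1, h2⟩) | (⟨h1, h2⟩ | ⟨h1, h2⟩))
    · rw [mem_singleton_iff] at h1
      simp only at h1 h2
      subst h1
      exact ⟨h0I, h2⟩
    · rw [mem_singleton_iff] at h1
      simp only at h1 h2
      subst h1
      exact ⟨h1I, h2⟩
    · exact ⟨h1, hBC h2⟩
    · obtain ⟨y, u⟩ := p
      obtain ⟨h3, h4⟩ := h2
      rw [mem_singleton_iff] at h4
      simp only at h3 h4
      subst h4
      exact ⟨h1, h3, h0I⟩
  let g : ι → ℝ × (W × ℝ) → V := fun i q => if q.1 = 0 then c i q.2 else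
    if q.1 = 1 then c' i q.2 else if q.2.2 = 0 then (F₀ i (q.1, q.2.1) : V) else δ i q
  have g0 : ∀ i, ∀ p, g i (0, p) = c i p := fun i p => by simp [g]
  have g1 : ∀ i, ∀ p, g i (1, p) = c' i p := fun i p => by simp [g]
  have gr : ∀ i, ∀ t ∈ Icc (0 : ℝ) 1, ∀ y ∈ C, g i (t, (y, 0)) = F₀ i (t, y) := by
    intro i t ht y hy
    by_cases h : t = 0
    · subst h
      rw [g0, hF₀0 i y hy, hπH _ (hcr i y hy)]
    · by_cases h' : t = 1
      · subst h'
        rw [g1, hF₀1 i y hy, hπH _ (hcr' i y hy)]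
      · simp [g, h, h']
  have gB : ∀ i, ∀ t ∈ Icc (0 : ℝ) 1, ∀ p ∈ B, g i (t, p) = δ i (t, p) := by
    rintro i t ht ⟨y, u⟩ hp
    by_cases h : t = 0
    · subst h
      rw [g0, hδ0 i _ hp]
    · by_cases h' : t = 1
      · subst h'
        rw [g1, hδ1 i _ hp]
      · by_cases h'' : u = 0
        · subst h''
          rw [gr i t ht y (hBC hp).1, hF₀A i t ht y hp, hπH _ (hδr i t ht y hp)]
        · simp [g, h, h', h'']
  have hg : ∀ i, ContinuousOn (g i) S := by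
    intro i
    have e0 : ContinuousOn (fun q : ℝ × (W × ℝ) => c i q.2) (univ ×ˢ K₀) :=
      (hc i).comp continuous_snd.continuousOn fun p hp => hp.2
    have e1 : ContinuousOn (fun q : ℝ × (W × ℝ) => c' i q.2) (univ ×ˢ K₀) :=
      (hc' i).comp continuous_snd.continuousOn fun p hp => hp.2
    refine ContinuousOn.union_of_isClosed (ContinuousOn.union_of_isClosed ?_ ?_
      (isClosed_singleton.prod hK₀) (isClosed_singleton.prod hK₀))
      (ContinuousOn.union_of_isClosed ?_ ?_ (isClosed_Icc.prod hB) (isClosed_Icc.prod hR))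
      ((isClosed_singleton.prod hK₀).union (isClosed_singleton.prod hK₀))
      ((isClosed_Icc.prod hB).union (isClosed_Icc.prod hR))
    · refine (e0.mono fun p hp => ⟨mem_univ _, hp.2⟩).congr fun p hp => ?_
      obtain ⟨t, z⟩ := p
      have : t = 0 := hp.1
      subst this
      exact g0 i z
    · refine (e1.mono fun p hp => ⟨mem_univ _, hp.2⟩).congr fun p hp => ?_
      obtain ⟨t, z⟩ := p
      have : t = 1 := hp.1
      subst this
      exact g1 i z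
    · exact (hδ i).congr fun p hp => gB i p.1 hp.1 p.2 hp.2
    · have e2 : ContinuousOn (fun q : ℝ × (W × ℝ) => ((F₀ i (q.1, q.2.1) : H) : V))
          (Icc 0 1 ×ˢ (C ×ˢ {(0 : ℝ)})) :=
        continuous_subtype_val.comp_continuousOn ((hF₀ i).comp
          (f := fun q : ℝ × (W × ℝ) => (q.1, q.2.1)) (by fun_prop)
          fun q hq => ⟨hq.1, hq.2.1⟩)
      refine e2.congr fun q hq => ?_
      obtain ⟨t, y, u⟩ := q
      have : u = 0 := hq.2.2
      subst this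
      exact gr i t hq.1 y hq.2.1
  -- extend the pair differences
  have hext : ∀ i j, i ≠ j → ∃ f : ℝ × (W × ℝ) → V, ContinuousOn f (Icc 0 1 ×ˢ K₀) ∧
      (∀ z ∈ Icc 0 1 ×ˢ K₀, f z ≠ 0) ∧ ∀ z ∈ S, f z = g j z - g i z := by
    intro i j hij
    have key : ∀ z ∈ S, g j z - g i z = D i j z ∨
        (D i j z ∈ H ∧ g j z - g i z ∈ H ∧ g j z - g i z ≠ 0) := by
      rintro ⟨t, p⟩ ((⟨h1, h2⟩ | ⟨h1, h2⟩) | (⟨h1, h2⟩ | ⟨h1, h2⟩))
      · rw [mem_singleton_iff] at h1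
        simp only at h1 h2
        subst h1
        left
        rw [g0 i p, g0 j p, hD1 i j hij p h2]
      · rw [mem_singleton_iff] at h1
        simp only at h1 h2
        subst h1
        left
        rw [g1 i p, g1 j p, hD2 i j hij p h2]
      · left
        rw [gB i t h1 p h2, gB j t h1 p h2, hDa i j hij t h1 p h2]
      · right
        obtain ⟨y, u⟩ := p
        obtain ⟨h3, h4⟩ := h2
        rw [mem_singleton_iff] at h4
        simp only at h1 h3 h4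
        subst h4
        rw [gr i t h1 y h3, gr j t h1 y h3]
        refine ⟨hDr i j hij t h1 y h3, H.sub_mem (F₀ j (t, y)).2 (F₀ i (t, y)).2, ?_⟩
        rw [Ne, sub_eq_zero]
        intro h5
        exact hij (hF₀i (t, y) ⟨h1, h3⟩ (Subtype.ext h5)).symm
    refine change_ext (K := Icc 0 1 ×ˢ K₀) (S := S) (isClosed_Icc.prod hK₀) hS hSK H hHtop
      (hD i j hij) (hD0 i j hij) ((hg j).sub (hg i)) (fun z hz => ?_) (fun z hz => ?_)
    · rcases key z hz with h | h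
      · rw [h]; exact hD0 i j hij z (hSK hz)
      · exact h.2.2
    · rcases key z hz with h | h
      · exact Or.inl h
      · exact Or.inr ⟨h.1, h.2.1⟩
  choose! E hE1 hE2 hE3 using hext
  obtain ⟨F, hF, hFS, hFi⟩ := extend_conf_on (W := ℝ × (W × ℝ)) (ι := ι) (m := n) (by omega) hV
    (by
      rw [Module.finrank_prod, Module.finrank_prod, Module.finrank_self]
      omega)
    (isCompact_Icc.prod (hC.prod isCompact_Icc))
    ((convex_Icc (0 : ℝ) 1).prod (hconv.prod (convex_Icc (0 : ℝ) 1)))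
    ((nonempty_Icc.mpr zero_le_one).prod (hne.prod (nonempty_Icc.mpr zero_le_one))) hS hSK g hg
    E hE1 hE2 hE3
  refine ⟨F, hF, fun i p hp => ?_, fun i p hp => ?_, fun i t ht y hy => ?_,
    fun i t ht p hp => ?_, hFi⟩
  · rw [hFS i (0, p) (Or.inl (Or.inl ⟨rfl, hp⟩)), g0 i p]
  · rw [hFS i (1, p) (Or.inl (Or.inr ⟨rfl, hp⟩)), g1 i p]
  · rw [hFS i (t, (y, 0)) (Or.inr (Or.inr ⟨ht, hy, rfl⟩)), gr i t ht y hy]
    exact (F₀ i (t, y)).2
  · rw [hFS i (t, p) (Or.inr (Or.inl ⟨ht, hp⟩)), gB i t ht p hp]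

end Vale.Agent.P268.T.W196
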