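import Vale.Agent.P268.T.W196.Cube

/-!
# P268, topological half: homotopies of one strand, the other strands being given
-/

namespace Vale.Agent.P268.T.W196

open Set Filter Topology Metric
open scoped unitInterval

variable {κ : Type*} [Fintype κ] [DecidableEq κ]
variable {V : Type*} [NormedAddCommGroup V] [NormedSpace ℝ V] [FiniteDimensional ℝ V]

/-- Extension of one strand. -/
theorem extend_one_on {W : Type*} [NormedAddCommGroup W] [NormedSpace ℝ W]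
    [FiniteDimensional ℝ W] {m : ℕ} (hm : 0 < m) (hV : Module.finrank ℝ V = m + 1)
    (hW : Module.finrank ℝ W < 2 * m) {C : Set W} (hC : IsCompact C) (hconv : Convex ℝ C)
    (hne : C.Nonempty) {S : Set W} (hS : IsClosed S) (hSC : S ⊆ C)
    (a : κ → W → V) (ha : ∀ i, ContinuousOn (a i) C)
    (hinj : ∀ z ∈ C, Function.Injective fun i => a i z)
    (g : W → V) (hg : ContinuousOn g S)
    (D : κ → W → V) (hD : ∀ i, ContinuousOn (D i) C) (hD0 : ∀ i, ∀ z ∈ C, D i z ≠ 0)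
    (hDS : ∀ i, ∀ z ∈ S, D i z = g z - a i z) :
    ∃ F : W → V, ContinuousOn F C ∧ (∀ z ∈ S, F z = g z) ∧ ∀ z ∈ C, ∀ i, F z ≠ a i z := by
  classical
  have _ : CompactSpace C := isCompact_iff_compactSpace.mp hC
  have _ : ContractibleSpace C := hconv.contractibleSpace hne
  have hdim : dimH (univ : Set C) < 2 * m := by
    have h1 : dimH (univ : Set C) = dimH C := by
      have := (isometry_subtype_coe (s := C)).dimH_image univ
      rw [image_univ, Subtype.range_coe] at this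
      exact this.symm
    rw [h1]
    refine (dimH_mono (subset_univ C)).trans_lt ?_
    rw [Real.dimH_univ_eq_finrank]
    exact_mod_cast hW
  have hS' : IsClosed ((↑) ⁻¹' S : Set C) := hS.preimage continuous_subtype_val
  have key : ∃ F : C → V, Continuous F ∧ (∀ z : C, z.1 ∈ S → F z = g z) ∧
      ∀ z : C, ∀ i, F z ≠ a i z := by
    rcases isEmpty_or_nonempty κ with hκ | ⟨⟨i₀⟩⟩
    · obtain ⟨G, hG⟩ := ContinuousMap.exists_restrict_eq hS
        (⟨S.domRestrict g, continuousOn_iff_continuous_domRestrict.mp hg⟩ : C(S, V))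
      refine ⟨fun z => G z.1, G.continuous.comp continuous_subtype_val, fun z hz => ?_,
        fun z i => (hκ.false i).elim⟩
      have := congrArg (fun f : C(S, V) => f ⟨z.1, hz⟩) hG
      exact this
    · obtain ⟨F, hF, hFS, hFa⟩ := lemmaW_moving (K := C) (ι := κ) hm hV hdim
        (a := fun i z => a i z.1)
        (fun i => (ha i).comp_continuous continuous_subtype_val fun z => z.2)
        (fun z => hinj z.1 z.2) hS'
        (G := fun i z => a i z.1 + D i z.1)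
        (fun i => ((ha i).add (hD i)).comp_continuous continuous_subtype_val fun z => z.2)
        (fun z hz i j => by
          rw [hDS i z.1 hz, hDS j z.1 hz]; abel)
        (fun i z h => hD0 i z.1 z.2 (by
          have h' : a i z.1 + D i z.1 = a i z.1 := h
          exact left_eq_add.mp h'.symm))
      refine ⟨F, hF, fun z hz => ?_, hFa⟩
      rw [hFS z hz i₀]
      show a i₀ z.1 + D i₀ z.1 = g z.1
      rw [hDS i₀ z.1 hz]; abel
  obtain ⟨F, h1, h2, h3⟩ := key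
  refine ⟨fun w => if h : w ∈ C then F ⟨w, h⟩ else 0, ?_, fun z hz => ?_, fun z hz i => ?_⟩
  · rw [continuousOn_iff_continuous_domRestrict]
    have e : C.domRestrict (fun w => if h : w ∈ C then F ⟨w, h⟩ else 0) = F := by
      funext z
      show (if h : z.1 ∈ C then F ⟨z.1, h⟩ else 0) = F z
      rw [dif_pos z.2]
    rw [e]
    exact h1
  · have := h2 ⟨z, hSC hz⟩ hz
    simp only [dif_pos (hSC hz)]
    exact this
  · simp only [dif_pos hz]
    exact h3 ⟨z, hz⟩ i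

/-- Homotopy of one strand over `C × [0,1]` with a rim face; the other strands `a` are given, the
homotopy is prescribed on `B`. -/
theorem strand_rim_mov {W : Type*} [NormedAddCommGroup W] [NormedSpace ℝ W]
    [FiniteDimensional ℝ W] {n : ℕ} (hn : 3 ≤ n) (hV : Module.finrank ℝ V = n + 1)
    (H : Submodule ℝ V) (hH : Module.finrank ℝ H = n) (hW : Module.finrank ℝ W + 1 ≤ n)
    {C : Set W} {B : Set (W × ℝ)}
    (hC : IsCompact C) (hconv : Convex ℝ C) (hne : C.Nonempty)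
    (hB : IsClosed B) (hBC : B ⊆ C ×ˢ Icc (0 : ℝ) 1)
    (a : κ → ℝ × (W × ℝ) → V) (ha : ∀ i, ContinuousOn (a i) (Icc 0 1 ×ˢ (C ×ˢ Icc 0 1)))
    (hinj : ∀ z ∈ Icc (0 : ℝ) 1 ×ˢ (C ×ˢ Icc (0 : ℝ) 1), Function.Injective fun i => a i z)
    (har : ∀ i, ∀ t ∈ Icc (0 : ℝ) 1, ∀ y ∈ C, a i (t, (y, 0)) ∈ H)
    (c c' : W × ℝ → V) (hc : ContinuousOn c (C ×ˢ Icc 0 1))
    (hc' : ContinuousOn c' (C ×ˢ Icc 0 1))
    (hcr : ∀ y ∈ C, c (y, 0) ∈ H) (hcr' : ∀ y ∈ C, c' (y, 0) ∈ H)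
    (δ : ℝ × (W × ℝ) → V) (hδ : ContinuousOn δ (Icc 0 1 ×ˢ B))
    (hδ0 : ∀ p ∈ B, δ (0, p) = c p) (hδ1 : ∀ p ∈ B, δ (1, p) = c' p)
    (hδr : ∀ t ∈ Icc (0 : ℝ) 1, ∀ y, (y, (0 : ℝ)) ∈ B → δ (t, (y, 0)) ∈ H)
    (D : κ → ℝ × (W × ℝ) → V)
    (hD : ∀ i, ContinuousOn (D i) (Icc 0 1 ×ˢ (C ×ˢ Icc 0 1)))
    (hD0 : ∀ i, ∀ p ∈ Icc (0 : ℝ) 1 ×ˢ (C ×ˢ Icc (0 : ℝ) 1), D i p ≠ 0)
    (hD1 : ∀ i, ∀ p ∈ C ×ˢ Icc (0 : ℝ) 1, D i (0, p) = c p - a i (0, p))
    (hD2 : ∀ i, ∀ p ∈ C ×ˢ Icc (0 : ℝ) 1, D i (1, p) = c' p - a i (1, p))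
    (hDr : ∀ i, ∀ t ∈ Icc (0 : ℝ) 1, ∀ y ∈ C, D i (t, (y, 0)) ∈ H)
    (hDa : ∀ i, ∀ t ∈ Icc (0 : ℝ) 1, ∀ p ∈ B, D i (t, p) = δ (t, p) - a i (t, p)) :
    ∃ F : ℝ × (W × ℝ) → V,
      ContinuousOn F (Icc 0 1 ×ˢ (C ×ˢ Icc 0 1)) ∧
      (∀ p ∈ C ×ˢ Icc (0 : ℝ) 1, F (0, p) = c p) ∧
      (∀ p ∈ C ×ˢ Icc (0 : ℝ) 1, F (1, p) = c' p) ∧
      (∀ t ∈ Icc (0 : ℝ) 1, ∀ y ∈ C, F (t, (y, 0)) ∈ H) ∧
      (∀ t ∈ Icc (0 : ℝ) 1, ∀ p ∈ B, F (t, p) = δ (t, p)) ∧
      ∀ p ∈ Icc (0 : ℝ) 1 ×ˢ (C ×ˢ Icc (0 : ℝ) 1), ∀ i, F p ≠ a i p := by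
  classical
  have hHtop : H ≠ ⊤ := by
    rintro rfl
    rw [finrank_top] at hH
    omega
  have h0I : (0 : ℝ) ∈ Icc (0 : ℝ) 1 := left_mem_Icc.mpr zero_le_one
  have h1I : (1 : ℝ) ∈ Icc (0 : ℝ) 1 := right_mem_Icc.mpr zero_le_one
  -- a retraction onto `H`
  obtain ⟨π, hπ⟩ := LinearMap.exists_leftInverse_of_injective H.subtype H.ker_subtype
  have hπc : Continuous π := LinearMap.continuous_of_finiteDimensional π
  have hπH : ∀ v ∈ H, ((π v : H) : V) = v := fun v hv => by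
    have := congrArg (fun f => f ⟨v, hv⟩) hπ
    simp only [LinearMap.comp_apply, Submodule.subtype_apply, LinearMap.id_apply] at this
    rw [this]
  have hπ0 : ∀ v ∈ H, v ≠ 0 → π v ≠ 0 := fun v hv h0 h1 => h0 (by
    rw [← hπH v hv, h1]; rfl)
  let K₀ : Set (W × ℝ) := C ×ˢ Icc 0 1
  have hK₀ : IsClosed K₀ := hC.isClosed.prod isClosed_Icc
  have hR : IsClosed (C ×ˢ {(0 : ℝ)}) := hC.isClosed.prod isClosed_singleton
  -- the boundary values, without the rim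
  let S₀ : Set (ℝ × (W × ℝ)) := ({0} ×ˢ K₀ ∪ {1} ×ˢ K₀) ∪ Icc 0 1 ×ˢ B
  have hS₀ : IsClosed S₀ := ((isClosed_singleton.prod hK₀).union
    (isClosed_singleton.prod hK₀)).union (isClosed_Icc.prod hB)
  have hS₀K : S₀ ⊆ Icc 0 1 ×ˢ K₀ := by
    rintro ⟨t, p⟩ ((⟨h1, h2⟩ | ⟨h1, h2⟩) | ⟨h1, h2⟩)
    · rw [mem_singleton_iff] at h1
      simp only at h1 h2
      subst h1
      exact ⟨h0I, h2⟩
    · rw [mem_singleton_iff] at h1
      simp only at h1 h2
      subst h1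
      exact ⟨h1I, h2⟩
    · exact ⟨h1, hBC h2⟩
  let g₀ : ℝ × (W × ℝ) → V := fun q => if q.1 = 0 then c q.2 else
    if q.1 = 1 then c' q.2 else δ q
  have g00 : ∀ p, g₀ (0, p) = c p := fun p => by simp [g₀]
  have g01 : ∀ p, g₀ (1, p) = c' p := fun p => by simp [g₀]
  have g0B : ∀ t, ∀ p ∈ B, g₀ (t, p) = δ (t, p) := by
    rintro t p hp
    by_cases h : t = 0
    · subst h
      rw [g00, hδ0 _ hp]
    · by_cases h' : t = 1
      · subst h'
        rw [g01, hδ1 _ hp]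
      · simp [g₀, h, h']
  have hg₀ : ContinuousOn g₀ S₀ := by
    have e0 : ContinuousOn (fun q : ℝ × (W × ℝ) => c q.2) (univ ×ˢ K₀) :=
      hc.comp continuous_snd.continuousOn fun p hp => hp.2
    have e1 : ContinuousOn (fun q : ℝ × (W × ℝ) => c' q.2) (univ ×ˢ K₀) :=
      hc'.comp continuous_snd.continuousOn fun p hp => hp.2
    refine ContinuousOn.union_of_isClosed (ContinuousOn.union_of_isClosed ?_ ?_
      (isClosed_singleton.prod hK₀) (isClosed_singleton.prod hK₀)) ?_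
      ((isClosed_singleton.prod hK₀).union (isClosed_singleton.prod hK₀)) (isClosed_Icc.prod hB)
    · refine (e0.mono fun p hp => ⟨mem_univ _, hp.2⟩).congr fun p hp => ?_
      obtain ⟨t, z⟩ := p
      have : t = 0 := hp.1
      subst this
      exact g00 z
    · refine (e1.mono fun p hp => ⟨mem_univ _, hp.2⟩).congr fun p hp => ?_
      obtain ⟨t, z⟩ := p
      have : t = 1 := hp.1
      subst this
      exact g01 z
    · exact hδ.congr fun p hp => g0B p.1 p.2 hp.2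
  have hDg₀ : ∀ i, ∀ z ∈ S₀, D i z = g₀ z - a i z := by
    rintro i ⟨t, p⟩ ((⟨h1, h2⟩ | ⟨h1, h2⟩) | ⟨h1, h2⟩)
    · rw [mem_singleton_iff] at h1
      simp only at h1 h2
      subst h1
      rw [g00, hD1 i p h2]
    · rw [mem_singleton_iff] at h1
      simp only at h1 h2
      subst h1
      rw [g01, hD2 i p h2]
    · rw [g0B t p h2, hDa i t h1 p h2]
  -- the rim
  let r : ℝ × W → ℝ × (W × ℝ) := fun z => (z.1, (z.2, 0))
  have hr : Continuous r := by fun_prop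
  have hrC : MapsTo r (Icc 0 1 ×ˢ C) (Icc 0 1 ×ˢ K₀) := fun z hz => ⟨hz.1, hz.2, h0I⟩
  have hg₀H : ∀ z ∈ Icc (0 : ℝ) 1 ×ˢ C, r z ∈ S₀ → g₀ (r z) ∈ H := by
    rintro ⟨t, y⟩ ⟨ht, hy⟩ ((⟨h1, h2⟩ | ⟨h1, h2⟩) | ⟨h1, h2⟩)
    · have : t = 0 := h1
      subst this
      show g₀ (0, (y, 0)) ∈ H
      rw [g00]; exact hcr y hy
    · have : t = 1 := h1
      subst this
      show g₀ (1, (y, 0)) ∈ H
      rw [g01]; exact hcr' y hy
    · show g₀ (t, (y, 0)) ∈ H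
      rw [g0B t _ h2]
      exact hδr t ht y h2
  obtain ⟨F₀, hF₀, hF₀S, hF₀a⟩ := extend_one_on (κ := κ) (V := H) (W := ℝ × W) (m := n - 1)
    (by omega) (by omega) (by rw [Module.finrank_prod, Module.finrank_self]; omega)
    (isCompact_Icc.prod hC) ((convex_Icc (0 : ℝ) 1).prod hconv)
    ((nonempty_Icc.mpr zero_le_one).prod hne)
    (S := (Icc 0 1 ×ˢ C) ∩ r ⁻¹' S₀)
    ((isClosed_Icc.prod hC.isClosed).inter (hS₀.preimage hr)) inter_subset_left
    (fun i z => π (a i (r z)))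
    (fun i => hπc.comp_continuousOn ((ha i).comp hr.continuousOn hrC))
    (fun z hz i j h => hinj (r z) (hrC hz) (by
      have h' : π (a i (r z)) = π (a j (r z)) := h
      have := congrArg (Subtype.val) h'
      rw [hπH _ (har i _ hz.1 _ hz.2), hπH _ (har j _ hz.1 _ hz.2)] at this
      exact this))
    (fun z => π (g₀ (r z)))
    (hπc.comp_continuousOn (hg₀.comp hr.continuousOn fun z hz => hz.2))
    (fun i z => π (D i (r z)))
    (fun i => hπc.comp_continuousOn ((hD i).comp hr.continuousOn hrC))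
    (fun i z hz => hπ0 _ (hDr i _ hz.1 _ hz.2) (hD0 i _ (hrC hz)))
    (fun i z hz => by
      show π (D i (r z)) = π (g₀ (r z)) - π (a i (r z))
      rw [hDg₀ i (r z) hz.2, map_sub])
  -- all boundary values
  let S : Set (ℝ × (W × ℝ)) := S₀ ∪ Icc 0 1 ×ˢ (C ×ˢ {(0 : ℝ)})
  have hS : IsClosed S := hS₀.union (isClosed_Icc.prod hR)
  have hSK : S ⊆ Icc 0 1 ×ˢ K₀ := by
    rintro ⟨t, y, u⟩ (h | ⟨h1, h3, h4⟩)
    · exact hS₀K h
    · rw [mem_singleton_iff] at h4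
      simp only at h1 h3 h4
      subst h4
      exact ⟨h1, h3, h0I⟩
  let g : ℝ × (W × ℝ) → V := fun q => if q ∈ S₀ then g₀ q else (F₀ (q.1, q.2.1) : V)
  have gS : ∀ q ∈ S₀, g q = g₀ q := fun q hq => by simp [g, hq]
  have gr : ∀ t ∈ Icc (0 : ℝ) 1, ∀ y ∈ C, g (t, (y, 0)) = F₀ (t, y) := by
    intro t ht y hy
    by_cases h : (t, (y, (0 : ℝ))) ∈ S₀
    · rw [gS _ h, hF₀S (t, y) ⟨⟨ht, hy⟩, h⟩]
      exact (hπH _ (hg₀H (t, y) ⟨ht, hy⟩ h)).symm
    · simp [g, h]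
  have hg : ContinuousOn g S := by
    refine ContinuousOn.union_of_isClosed ?_ ?_ hS₀ (isClosed_Icc.prod hR)
    · exact hg₀.congr gS
    · have e2 : ContinuousOn (fun q : ℝ × (W × ℝ) => ((F₀ (q.1, q.2.1) : H) : V))
          (Icc 0 1 ×ˢ (C ×ˢ {(0 : ℝ)})) :=
        continuous_subtype_val.comp_continuousOn (hF₀.comp
          (f := fun q : ℝ × (W × ℝ) => (q.1, q.2.1)) (by fun_prop)
          fun q hq => ⟨hq.1, hq.2.1⟩)
      refine e2.congr fun q hq => ?_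
      obtain ⟨t, y, u⟩ := q
      have : u = 0 := hq.2.2
      subst this
      exact gr t hq.1 y hq.2.1
  have hext : ∀ i, ∃ f : ℝ × (W × ℝ) → V, ContinuousOn f (Icc 0 1 ×ˢ K₀) ∧
      (∀ z ∈ Icc 0 1 ×ˢ K₀, f z ≠ 0) ∧ ∀ z ∈ S, f z = g z - a i z := by
    intro i
    have key : ∀ z ∈ S, g z - a i z = D i z ∨
        (D i z ∈ H ∧ g z - a i z ∈ H ∧ g z - a i z ≠ 0) := by
      rintro ⟨t, p⟩ (h | ⟨h1, h2⟩)
      · left
        rw [gS _ h, hDg₀ i _ h]
      · right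
        obtain ⟨y, u⟩ := p
        obtain ⟨h3, h4⟩ := h2
        rw [mem_singleton_iff] at h4
        simp only at h1 h3 h4
        subst h4
        rw [gr t h1 y h3]
        refine ⟨hDr i t h1 y h3, H.sub_mem (F₀ (t, y)).2 (har i t h1 y h3), ?_⟩
        rw [Ne, sub_eq_zero]
        intro h5
        refine hF₀a (t, y) ⟨h1, h3⟩ i (Subtype.ext ?_)
        rw [h5]
        exact (hπH _ (har i t h1 y h3)).symm
    refine change_ext (K := Icc 0 1 ×ˢ K₀) (S := S) (isClosed_Icc.prod hK₀) hS hSK H hHtop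
      (hD i) (hD0 i) (hg.sub ((ha i).mono hSK)) (fun z hz => ?_) (fun z hz => ?_)
    · rcases key z hz with h | h
      · rw [h]; exact hD0 i z (hSK hz)
      · exact h.2.2
    · rcases key z hz with h | h
      · exact Or.inl h
      · exact Or.inr ⟨h.1, h.2.1⟩
  choose E hE1 hE2 hE3 using hext
  obtain ⟨F, hF, hFS, hFa⟩ := extend_one_on (W := ℝ × (W × ℝ)) (κ := κ) (m := n) (by omega) hV
    (by
      rw [Module.finrank_prod, Module.finrank_prod, Module.finrank_self]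
      omega)
    (isCompact_Icc.prod (hC.prod isCompact_Icc))
    ((convex_Icc (0 : ℝ) 1).prod (hconv.prod (convex_Icc (0 : ℝ) 1)))
    ((nonempty_Icc.mpr zero_le_one).prod (hne.prod (nonempty_Icc.mpr zero_le_one))) hS hSK
    a ha hinj g hg E hE1 hE2 hE3
  refine ⟨F, hF, fun p hp => ?_, fun p hp => ?_, fun t ht y hy => ?_,
    fun t ht p hp => ?_, hFa⟩
  · have h : ((0 : ℝ), p) ∈ S₀ := Or.inl (Or.inl ⟨rfl, hp⟩)
    rw [hFS (0, p) (Or.inl h), gS _ h, g00]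
  · have h : ((1 : ℝ), p) ∈ S₀ := Or.inl (Or.inr ⟨rfl, hp⟩)
    rw [hFS (1, p) (Or.inl h), gS _ h, g01]
  · rw [hFS (t, (y, 0)) (Or.inr ⟨ht, hy, rfl⟩), gr t ht y hy]
    exact (F₀ (t, y)).2
  · have h : (t, p) ∈ S₀ := Or.inr ⟨ht, hp⟩
    rw [hFS (t, p) (Or.inl h), gS _ h, g0B t p hp]

end Vale.Agent.P268.T.W196
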