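import Vale.Agent.P268.T.W196.HT

/-!
# P268, topological half: homotopies of braids with a rim face
-/

namespace Vale.Agent.P268.T.W196

open Set Filter Topology Metric

section Borsuk

variable {E : Type*} [TopologicalSpace E] [NormalSpace E]
variable {V : Type*} [NormedAddCommGroup V] [NormedSpace ℝ V] [FiniteDimensional ℝ V]

/-- **Borsuk's homotopy extension theorem** with values in `V ∖ {0}`. -/
theorem borsuk_ext [NormalSpace (ℝ × E)] {K S : Set E} (hK : IsClosed K) (hS : IsClosed S)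
    {g₀ : E → V} (hg : ContinuousOn g₀ K) (hg0 : ∀ z ∈ K, g₀ z ≠ 0)
    {h : ℝ → E → V} (hh : ContinuousOn (fun p : ℝ × E => h p.1 p.2) (Icc 0 1 ×ˢ S))
    (hh0 : ∀ t ∈ Icc (0 : ℝ) 1, ∀ z ∈ S, h t z ≠ 0) (hhg : ∀ z ∈ S, h 0 z = g₀ z) :
    ∃ g₁ : E → V, ContinuousOn g₁ K ∧ (∀ z ∈ K, g₁ z ≠ 0) ∧ ∀ z ∈ S, g₁ z = h 1 z := by
  classical
  -- the closed set and the map on it
  let Q : Set (ℝ × E) := {0} ×ˢ K ∪ Icc 0 1 ×ˢ S
  have hQ : IsClosed Q := (isClosed_singleton.prod hK).union (isClosed_Icc.prod hS)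
  let q : ℝ × E → V := fun p => if p.1 = 0 then g₀ p.2 else h p.1 p.2
  have hq0 : ∀ z, q (0, z) = g₀ z := fun z => if_pos rfl
  have hq1 : ∀ t z, z ∈ S → q (t, z) = h t z := fun t z hz => by
    by_cases ht : t = 0
    · subst ht; rw [hq0, hhg z hz]
    · exact if_neg ht
  have hq : ContinuousOn q Q := by
    refine ContinuousOn.union_of_isClosed ?_ ?_ (isClosed_singleton.prod hK)
      (isClosed_Icc.prod hS)
    · have e0 : ContinuousOn (fun p : ℝ × E => g₀ p.2) ({0} ×ˢ K) :=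
        hg.comp continuous_snd.continuousOn fun p hp => hp.2
      refine e0.congr fun p hp => ?_
      obtain ⟨t, z⟩ := p
      have : t = 0 := hp.1
      subst this
      exact hq0 z
    · exact hh.congr fun p hp => hq1 p.1 p.2 hp.2
  -- Tietze
  obtain ⟨G, hG⟩ := ContinuousMap.exists_restrict_eq hQ
    (⟨Q.domRestrict q, continuousOn_iff_continuous_domRestrict.mp hq⟩ : C(Q, V))
  have hGq : ∀ p ∈ Q, G p = q p := fun p hp => by
    have := congrArg (fun f : C(Q, V) => f ⟨p, hp⟩) hG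
    exact this
  -- the tube
  have hopen : IsOpen {p : ℝ × E | G p ≠ 0} := isOpen_ne_fun G.continuous continuous_const
  have hsub : Icc (0 : ℝ) 1 ×ˢ S ⊆ {p : ℝ × E | G p ≠ 0} := by
    rintro ⟨t, z⟩ ⟨ht, hz⟩
    show G (t, z) ≠ 0
    rw [hGq (t, z) (Or.inr ⟨ht, hz⟩), hq1 t z hz]
    exact hh0 t ht z hz
  have htube : ∃ N : Set E, IsOpen N ∧ S ⊆ N ∧ ∀ t ∈ Icc (0 : ℝ) 1, ∀ z ∈ N, G (t, z) ≠ 0 := by
    let N : Set E := ⋃₀ {U | IsOpen U ∧ ∀ t ∈ Icc (0 : ℝ) 1, ∀ z ∈ U, G (t, z) ≠ 0}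
    refine ⟨N, isOpen_sUnion fun U hU => hU.1, fun z hz => ?_, fun t ht z hz => ?_⟩
    · obtain ⟨U, V', -, hV', hU, hzV, hUV⟩ := generalized_tube_lemma
        (isCompact_Icc (a := (0 : ℝ)) (b := 1)) (isCompact_singleton (x := z)) hopen
        ((prod_mono Subset.rfl (singleton_subset_iff.mpr hz)).trans hsub)
      exact ⟨V', ⟨hV', fun t ht y hy => hUV ⟨hU ht, hy⟩⟩, hzV rfl⟩
    · obtain ⟨U, hU, hzU⟩ := hz
      exact hU.2 t ht z hzU
  obtain ⟨N, hN, hSN, hNG⟩ := htube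
  obtain ⟨φ, h0, h1, h01⟩ := exists_continuous_zero_one_of_isClosed hN.isClosed_compl hS
    (disjoint_compl_left_iff_subset.mpr hSN)
  refine ⟨fun z => G (φ z, z), (G.continuous.comp (φ.continuous.prodMk continuous_id)).continuousOn,
    fun z hz => ?_, fun z hz => ?_⟩
  · by_cases hzN : z ∈ N
    · exact hNG _ (h01 z) z hzN
    · have : φ z = 0 := h0 hzN
      show G (φ z, z) ≠ 0
      rw [this, hGq (0, z) (Or.inl ⟨rfl, hz⟩), hq0]
      exact hg0 z hz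
  · have : φ z = 1 := h1 hz
    show G (φ z, z) = _
    rw [this, hGq (1, z) (Or.inr ⟨right_mem_Icc.mpr zero_le_one, hz⟩), hq1 1 z hz]

/-- A map `D` on `K` with values in `V ∖ {0}` may be changed on the closed set `S` wherever both
the old and the new values are in the proper subspace `H`. -/
theorem change_ext [NormalSpace (ℝ × E)] {K S : Set E} (hK : IsClosed K) (hS : IsClosed S)
    (hSK : S ⊆ K) (H : Submodule ℝ V) (hH : H ≠ ⊤)
    {D : E → V} (hD : ContinuousOn D K) (hD0 : ∀ z ∈ K, D z ≠ 0)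
    {G : E → V} (hG : ContinuousOn G S) (hG0 : ∀ z ∈ S, G z ≠ 0)
    (hDG : ∀ z ∈ S, G z = D z ∨ (D z ∈ H ∧ G z ∈ H)) :
    ∃ g₁ : E → V, ContinuousOn g₁ K ∧ (∀ z ∈ K, g₁ z ≠ 0) ∧ ∀ z ∈ S, g₁ z = G z := by
  obtain ⟨e, he⟩ : ∃ e, e ∉ H := by
    by_contra hcon
    push Not at hcon
    exact hH (eq_top_iff.mpr fun x _ => hcon x)
  have hDS : ContinuousOn (fun p : ℝ × E => D p.2) (Icc (0 : ℝ) 1 ×ˢ S) :=
    (hD.mono hSK).comp continuous_snd.continuousOn fun p hp => hp.2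
  have hGS : ContinuousOn (fun p : ℝ × E => G p.2) (Icc (0 : ℝ) 1 ×ˢ S) :=
    hG.comp continuous_snd.continuousOn fun p hp => hp.2
  have hf : ContinuousOn (fun p : ℝ × E => p.1) (Icc (0 : ℝ) 1 ×ˢ S) :=
    continuous_fst.continuousOn
  have hc : ContinuousOn (fun p : ℝ × E => (1 - p.1) • D p.2 + p.1 • G p.2 +
      (p.1 * (1 - p.1) * ‖D p.2 - G p.2‖) • e) (Icc (0 : ℝ) 1 ×ˢ S) :=
    (((continuousOn_const.sub hf).smul hDS).add (hf.smul hGS)).add
      (((hf.mul (continuousOn_const.sub hf)).mul (hDS.sub hGS).norm).smul continuousOn_const)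
  have hn : ∀ t ∈ Icc (0 : ℝ) 1, ∀ z ∈ S,
      (1 - t) • D z + t • G z + (t * (1 - t) * ‖D z - G z‖) • e ≠ 0 := by
    intro t ht z hz
    rcases hDG z hz with h | ⟨h, h'⟩
    · simp only [h, sub_self, norm_zero, mul_zero, zero_smul, add_zero]
      rw [← add_smul, sub_add_cancel, one_smul]
      exact hD0 z (hSK hz)
    · intro h0
      have h4 : (t * (1 - t) * ‖D z - G z‖) • e ∈ H := by
        have : (t * (1 - t) * ‖D z - G z‖) • e = - ((1 - t) • D z + t • G z) :=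
          eq_neg_of_add_eq_zero_right h0
        rw [this]
        exact H.neg_mem (H.add_mem (H.smul_mem _ h) (H.smul_mem _ h'))
      have h5 : t * (1 - t) * ‖D z - G z‖ = 0 := by
        by_contra hne
        exact he ((H.smul_mem_iff hne).mp h4)
      rw [h5, zero_smul, add_zero] at h0
      rcases mul_eq_zero.mp h5 with h6 | h6
      · rcases mul_eq_zero.mp h6 with h7 | h7
        · subst h7
          simp only [sub_zero, one_smul, zero_smul, add_zero] at h0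
          exact hD0 z (hSK hz) h0
        · have : t = 1 := by linarith
          subst this
          simp only [sub_self, one_smul, zero_smul, zero_add] at h0
          exact hG0 z hz h0
      · have h7 : D z = G z := sub_eq_zero.mp (norm_eq_zero.mp h6)
        rw [h7, ← add_smul, sub_add_cancel, one_smul] at h0
        exact hG0 z hz h0
  obtain ⟨g₁, h1, h2, h3⟩ := borsuk_ext (K := K) (S := S) hK hS hD hD0
    (h := fun t z => (1 - t) • D z + t • G z + (t * (1 - t) * ‖D z - G z‖) • e) hc hn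
    (fun z hz => by simp)
  refine ⟨g₁, h1, h2, fun z hz => ?_⟩
  rw [h3 z hz]
  simp

end Borsuk

section Rim

variable {ι : Type*} [Fintype ι] [DecidableEq ι]
variable {V : Type*} [NormedAddCommGroup V] [NormedSpace ℝ V] [FiniteDimensional ℝ V]
variable {W : Type*} [NormedAddCommGroup W] [NormedSpace ℝ W] [FiniteDimensional ℝ W]

/-- **Homotopy theorem for braids with a rim face.** The base is `C × [0,1]`, the rim face is
`C × {0}`, where the configurations are in the hyperplane `H`; on `A × [0,1] ∪ C × {1}` everything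
is fixed. If all the pair differences of `c` and `c'` are homotopic (with these face conditions)
then `c` and `c'` are homotopic. -/
theorem homotopy_rim {n : ℕ} (hn : 3 ≤ n) (hV : Module.finrank ℝ V = n + 1)
    (H : Submodule ℝ V) (hH : Module.finrank ℝ H = n) (hW : Module.finrank ℝ W + 1 ≤ n)
    {C A : Set W} (hC : IsCompact C) (hconv : Convex ℝ C) (hne : C.Nonempty)
    (hA : IsClosed A) (hAC : A ⊆ C)
    (c c' : ι → W × ℝ → V) (hc : ∀ i, ContinuousOn (c i) (C ×ˢ Icc 0 1))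
    (hc' : ∀ i, ContinuousOn (c' i) (C ×ˢ Icc 0 1))
    (hcr : ∀ i, ∀ y ∈ C, c i (y, 0) ∈ H) (hcr' : ∀ i, ∀ y ∈ C, c' i (y, 0) ∈ H)
    (hag : ∀ i, ∀ p ∈ A ×ˢ Icc (0 : ℝ) 1 ∪ C ×ˢ {(1 : ℝ)}, c i p = c' i p)
    (D : ι → ι → ℝ × (W × ℝ) → V)
    (hD : ∀ i j, i ≠ j → ContinuousOn (D i j) (Icc 0 1 ×ˢ (C ×ˢ Icc 0 1)))
    (hD0 : ∀ i j, i ≠ j → ∀ p ∈ Icc (0 : ℝ) 1 ×ˢ (C ×ˢ Icc (0 : ℝ) 1), D i j p ≠ 0)
    (hD1 : ∀ i j, i ≠ j → ∀ p ∈ C ×ˢ Icc (0 : ℝ) 1, D i j (0, p) = c j p - c i p)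
    (hD2 : ∀ i j, i ≠ j → ∀ p ∈ C ×ˢ Icc (0 : ℝ) 1, D i j (1, p) = c' j p - c' i p)
    (hDr : ∀ i j, i ≠ j → ∀ t ∈ Icc (0 : ℝ) 1, ∀ y ∈ C, D i j (t, (y, 0)) ∈ H)
    (hDa : ∀ i j, i ≠ j → ∀ t ∈ Icc (0 : ℝ) 1, ∀ p ∈ A ×ˢ Icc (0 : ℝ) 1 ∪ C ×ˢ {(1 : ℝ)},
      D i j (t, p) = c j p - c i p) :
    ∃ F : ι → ℝ × (W × ℝ) → V,
      (∀ i, ContinuousOn (F i) (Icc 0 1 ×ˢ (C ×ˢ Icc 0 1))) ∧
      (∀ i, ∀ p ∈ C ×ˢ Icc (0 : ℝ) 1, F i (0, p) = c i p) ∧
      (∀ i, ∀ p ∈ C ×ˢ Icc (0 : ℝ) 1, F i (1, p) = c' i p) ∧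
      (∀ i, ∀ t ∈ Icc (0 : ℝ) 1, ∀ y ∈ C, F i (t, (y, 0)) ∈ H) ∧
      (∀ i, ∀ t ∈ Icc (0 : ℝ) 1, ∀ p ∈ A ×ˢ Icc (0 : ℝ) 1 ∪ C ×ˢ {(1 : ℝ)},
        F i (t, p) = c i p) ∧
      ∀ p ∈ Icc (0 : ℝ) 1 ×ˢ (C ×ˢ Icc (0 : ℝ) 1), Function.Injective fun i => F i p := by
  classical
  have hHtop : H ≠ ⊤ := by
    rintro rfl
    rw [finrank_top] at hH
    omega
  have h0I : (0 : ℝ) ∈ Icc (0 : ℝ) 1 := left_mem_Icc.mpr zero_le_one
  have h1I : (1 : ℝ) ∈ Icc (0 : ℝ) 1 := right_mem_Icc.mpr zero_le_one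
  -- a retraction onto `H`
  obtain ⟨π, hπ⟩ := LinearMap.exists_leftInverse_of_injective H.subtype H.ker_subtype
  have hπc : Continuous π := LinearMap.continuous_of_finiteDimensional π
  have hπH : ∀ v ∈ H, ((π v : H) : V) = v := fun v hv => by
    have := congrArg (fun f => f ⟨v, hv⟩) hπ
    simp only [LinearMap.comp_apply, Submodule.subtype_apply, LinearMap.id_apply] at this
    rw [this]
  have hπ0 : ∀ v ∈ H, v ≠ 0 → π v ≠ 0 := fun v hv h0 h1 => h0 (by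
    rw [← hπH v hv, h1]; rfl)
  -- the rim
  have hrimc : ∀ (f : W × ℝ → V), ContinuousOn f (C ×ˢ Icc 0 1) →
      ContinuousOn (fun y => π (f (y, 0))) C := fun f hf =>
    hπc.comp_continuousOn (hf.comp (Continuous.prodMk continuous_id continuous_const).continuousOn
      fun y hy => ⟨hy, h0I⟩)
  obtain ⟨F₀, hF₀, hF₀0, hF₀1, hF₀A, hF₀i⟩ := homotopy_conf (ι := ι) (V := H) (W := W)
    (m := n - 1) (by omega) (by omega) (by omega) hC hconv hne hA hAC
    (fun i y => π (c i (y, 0))) (fun i y => π (c' i (y, 0)))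
    (fun i => hrimc _ (hc i)) (fun i => hrimc _ (hc' i))
    (fun y hy i => by rw [hag i (y, 0) (Or.inl ⟨hy, h0I⟩)])
    (fun i j t y => π (D i j (t, (y, 0))))
    (fun i j hij => hπc.comp_continuousOn ((hD i j hij).comp
      (f := fun p : ℝ × W => ((p.1, (p.2, (0 : ℝ))) : ℝ × (W × ℝ)))
      (by fun_prop) fun p hp => ⟨hp.1, hp.2, h0I⟩))
    (fun i j hij t ht y hy => hπ0 _ (hDr i j hij t ht y hy)
      (hD0 i j hij _ ⟨ht, hy, h0I⟩))
    (fun i j hij y hy => by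
      rw [hD1 i j hij (y, 0) ⟨hy, h0I⟩, map_sub])
    (fun i j hij y hy => by
      rw [hD2 i j hij (y, 0) ⟨hy, h0I⟩, map_sub])
    (fun i j hij t ht y hy => by
      rw [hDa i j hij t ht (y, 0) (Or.inl ⟨hy, h0I⟩), map_sub])
  -- the closed set
  let K₀ : Set (W × ℝ) := C ×ˢ Icc 0 1
  let B : Set (W × ℝ) := A ×ˢ Icc (0 : ℝ) 1 ∪ C ×ˢ {(1 : ℝ)}
  have hK₀ : IsClosed K₀ := hC.isClosed.prod isClosed_Icc
  have hB : IsClosed B := (hA.prod isClosed_Icc).union (hC.isClosed.prod isClosed_singleton)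
  have hR : IsClosed (C ×ˢ {(0 : ℝ)}) := hC.isClosed.prod isClosed_singleton
  let S : Set (ℝ × (W × ℝ)) := ({0} ×ˢ K₀ ∪ {1} ×ˢ K₀) ∪
    (Icc 0 1 ×ˢ B ∪ Icc 0 1 ×ˢ (C ×ˢ {(0 : ℝ)}))
  have hS : IsClosed S := ((isClosed_singleton.prod hK₀).union (isClosed_singleton.prod hK₀)).union
    ((isClosed_Icc.prod hB).union (isClosed_Icc.prod hR))
  have hBK : B ⊆ K₀ := by
    rintro ⟨y, u⟩ (⟨h1, h2⟩ | ⟨h1, h2⟩)
    · exact ⟨hAC h1, h2⟩
    · rw [mem_singleton_iff] at h2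
      simp only at h2
      subst h2
      exact ⟨h1, h1I⟩
  have hSK : S ⊆ Icc 0 1 ×ˢ K₀ := by
    rintro ⟨t, p⟩ ((⟨h1, h2⟩ | ⟨h1, h2⟩) | (⟨h1, h2⟩ | ⟨h1, h2⟩))
    · rw [mem_singleton_iff] at h1
      simp only at h1 h2
      subst h1
      exact ⟨h0I, h2⟩
    · rw [mem_singleton_iff] at h1
      simp only at h1 h2
      subst h1
      exact ⟨h1I, h2⟩
    · exact ⟨h1, hBK h2⟩
    · obtain ⟨y, u⟩ := p
      obtain ⟨h3, h4⟩ := h2
      rw [mem_singleton_iff] at h4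
      simp only at h3 h4
      subst h4
      exact ⟨h1, h3, h0I⟩
  let g : ι → ℝ × (W × ℝ) → V := fun i q =>
    if q.2.2 = 0 then (F₀ i q.1 q.2.1 : V) else if q.1 = 1 then c' i q.2 else c i q.2
  have gr : ∀ i t y, g i (t, (y, 0)) = F₀ i t y := fun i t y => by simp [g]
  have g0 : ∀ i, ∀ p ∈ K₀, g i (0, p) = c i p := by
    rintro i ⟨y, u⟩ ⟨hy, hu⟩
    by_cases h : u = 0
    · subst h
      rw [gr, hF₀0 i y hy, hπH _ (hcr i y hy)]
    · simp [g, h]
  have g1 : ∀ i, ∀ p ∈ K₀, g i (1, p) = c' i p := by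
    rintro i ⟨y, u⟩ ⟨hy, hu⟩
    by_cases h : u = 0
    · subst h
      rw [gr, hF₀1 i y hy, hπH _ (hcr' i y hy)]
    · simp [g, h]
  have gB : ∀ i, ∀ t ∈ Icc (0 : ℝ) 1, ∀ p ∈ B, g i (t, p) = c i p := by
    rintro i t ht ⟨y, u⟩ hp
    by_cases h : u = 0
    · subst h
      rcases hp with ⟨h1, h2⟩ | ⟨h1, h2⟩
      · rw [gr, hF₀A i t ht y h1, hπH _ (hcr i y (hAC h1))]
      · rw [mem_singleton_iff] at h2
        exact absurd h2 (by norm_num)
    · by_cases h' : t = 1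
      · subst h'
        rw [g1 i _ (hBK hp), hag i _ hp]
      · simp [g, h, h']
  have hg : ∀ i, ContinuousOn (g i) S := by
    intro i
    have e0 : ContinuousOn (fun q : ℝ × (W × ℝ) => c i q.2) (univ ×ˢ K₀) :=
      (hc i).comp continuous_snd.continuousOn fun p hp => hp.2
    have e1 : ContinuousOn (fun q : ℝ × (W × ℝ) => c' i q.2) (univ ×ˢ K₀) :=
      (hc' i).comp continuous_snd.continuousOn fun p hp => hp.2
    refine ContinuousOn.union_of_isClosed (ContinuousOn.union_of_isClosed ?_ ?_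
      (isClosed_singleton.prod hK₀) (isClosed_singleton.prod hK₀))
      (ContinuousOn.union_of_isClosed ?_ ?_ (isClosed_Icc.prod hB) (isClosed_Icc.prod hR))
      ((isClosed_singleton.prod hK₀).union (isClosed_singleton.prod hK₀))
      ((isClosed_Icc.prod hB).union (isClosed_Icc.prod hR))
    · refine (e0.mono fun p hp => ⟨mem_univ _, hp.2⟩).congr fun p hp => ?_
      obtain ⟨t, z⟩ := p
      have : t = 0 := hp.1
      subst this
      exact g0 i z hp.2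
    · refine (e1.mono fun p hp => ⟨mem_univ _, hp.2⟩).congr fun p hp => ?_
      obtain ⟨t, z⟩ := p
      have : t = 1 := hp.1
      subst this
      exact g1 i z hp.2
    · refine (e0.mono fun p hp => ⟨mem_univ _, hBK hp.2⟩).congr fun p hp => ?_
      exact gB i p.1 hp.1 p.2 hp.2
    · have e2 : ContinuousOn (fun q : ℝ × (W × ℝ) => ((F₀ i q.1 q.2.1 : H) : V))
          (Icc 0 1 ×ˢ (C ×ˢ {(0 : ℝ)})) :=
        continuous_subtype_val.comp_continuousOn ((hF₀ i).comp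
          (f := fun q : ℝ × (W × ℝ) => (q.1, q.2.1)) (by fun_prop)
          fun q hq => ⟨hq.1, hq.2.1⟩)
      refine e2.congr fun q hq => ?_
      obtain ⟨t, y, u⟩ := q
      have : u = 0 := hq.2.2
      subst this
      exact gr i t y
  -- extend the pair differences
  have hext : ∀ i j, i ≠ j → ∃ f : ℝ × (W × ℝ) → V, ContinuousOn f (Icc 0 1 ×ˢ K₀) ∧
      (∀ z ∈ Icc 0 1 ×ˢ K₀, f z ≠ 0) ∧ ∀ z ∈ S, f z = g j z - g i z := by
    intro i j hij
    have key : ∀ z ∈ S, g j z - g i z = D i j z ∨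
        (D i j z ∈ H ∧ g j z - g i z ∈ H ∧ g j z - g i z ≠ 0) := by
      rintro ⟨t, p⟩ ((⟨h1, h2⟩ | ⟨h1, h2⟩) | (⟨h1, h2⟩ | ⟨h1, h2⟩))
      · rw [mem_singleton_iff] at h1
        simp only at h1 h2
        subst h1
        left
        rw [g0 i p h2, g0 j p h2, hD1 i j hij p h2]
      · rw [mem_singleton_iff] at h1
        simp only at h1 h2
        subst h1
        left
        rw [g1 i p h2, g1 j p h2, hD2 i j hij p h2]
      · left
        rw [gB i t h1 p h2, gB j t h1 p h2, hDa i j hij t h1 p h2]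
      · right
        obtain ⟨y, u⟩ := p
        obtain ⟨h3, h4⟩ := h2
        rw [mem_singleton_iff] at h4
        simp only at h1 h3 h4
        subst h4
        rw [gr, gr]
        refine ⟨hDr i j hij t h1 y h3, H.sub_mem (F₀ j t y).2 (F₀ i t y).2, ?_⟩
        rw [Ne, sub_eq_zero]
        intro h5
        exact hij (hF₀i t h1 y h3 (Subtype.ext h5)).symm
    refine change_ext (K := Icc 0 1 ×ˢ K₀) (S := S) (isClosed_Icc.prod hK₀) hS hSK H hHtop
      (hD i j hij) (hD0 i j hij) ((hg j).sub (hg i)) (fun z hz => ?_) (fun z hz => ?_)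
    · rcases key z hz with h | h
      · rw [h]; exact hD0 i j hij z (hSK hz)
      · exact h.2.2
    · rcases key z hz with h | h
      · exact Or.inl h
      · exact Or.inr ⟨h.1, h.2.1⟩
  choose! E hE1 hE2 hE3 using hext
  obtain ⟨F, hF, hFS, hFi⟩ := extend_conf_on (W := ℝ × (W × ℝ)) (ι := ι) (m := n) (by omega) hV
    (by
      rw [Module.finrank_prod, Module.finrank_prod, Module.finrank_self]
      omega)
    (isCompact_Icc.prod (hC.prod isCompact_Icc))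
    ((convex_Icc (0 : ℝ) 1).prod (hconv.prod (convex_Icc (0 : ℝ) 1)))
    ((nonempty_Icc.mpr zero_le_one).prod (hne.prod (nonempty_Icc.mpr zero_le_one))) hS hSK g hg
    E hE1 hE2 hE3
  refine ⟨F, hF, fun i p hp => ?_, fun i p hp => ?_, fun i t ht y hy => ?_,
    fun i t ht p hp => ?_, hFi⟩
  · rw [hFS i (0, p) (Or.inl (Or.inl ⟨rfl, hp⟩)), g0 i p hp]
  · rw [hFS i (1, p) (Or.inl (Or.inr ⟨rfl, hp⟩)), g1 i p hp]
  · rw [hFS i (t, (y, 0)) (Or.inr (Or.inr ⟨ht, hy, rfl⟩)), gr]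
    exact (F₀ i t y).2
  · rw [hFS i (t, p) (Or.inr (Or.inl ⟨ht, hp⟩)), gB i t ht p hp]

end Rim

end Vale.Agent.P268.T.W196
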