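import Vale.Agent.P268.T.W196.Lip

/-!
# P268, topological half: Lemma W

A map `g : S → V ∖ {a_i}` which extends over `K` to a map avoiding `a_i`, for each `i` separately,
extends over `K` to a map avoiding all the `a_i`, if `dim K < 2 (dim V - 1)`.
-/

namespace Vale.Agent.P268.T.W196

open Set Filter Topology Metric

variable {K : Type*} [MetricSpace K] [CompactSpace K]
variable {H : Type*} [NormedAddCommGroup H] [NormedSpace ℝ H] [FiniteDimensional ℝ H]
variable {ι : Type*} [Fintype ι] [DecidableEq ι]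

/-- A positive continuous function on a compact space has a positive lower bound. -/
theorem exists_pos_le {X : Type*} [TopologicalSpace X] [CompactSpace X] {f : X → ℝ}
    (hf : Continuous f) (h : ∀ x, 0 < f x) : ∃ c > 0, ∀ x, c ≤ f x := by
  by_cases hX : Nonempty X
  · obtain ⟨x, hx⟩ := hf.exists_forall_le_of_hasCompactSupport
      (HasCompactSupport.of_compactSpace f)
    exact ⟨f x, h x, hx⟩
  · exact ⟨1, one_pos, fun x => (hX ⟨x⟩).elim⟩

/-- Finitely many positive numbers have a positive lower bound. -/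
theorem exists_pos_le_finite {α : Type*} [Finite α] {f : α → ℝ} (h : ∀ x, 0 < f x) :
    ∃ c > 0, ∀ x, c ≤ f x := by
  let _ : TopologicalSpace α := ⊥
  have _ : DiscreteTopology α := ⟨rfl⟩
  exact exists_pos_le continuous_of_discreteTopology h

/-- Step 1: making the bad sets disjoint. -/
theorem exists_disjoint (hdim : dimH (univ : Set K) < 2 * Module.finrank ℝ H)
    {a : ι → H × ℝ} (ha : Function.Injective fun i => (a i).1) {S : Set K} (hS : IsClosed S)
    {G : ι → K → H × ℝ} (hG : ∀ i, Continuous (G i)) (hSG : ∀ z ∈ S, ∀ i j, G i z = G j z)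
    (hGa : ∀ i z, G i z ≠ a i) :
    ∃ G' : ι → K → H × ℝ, (∀ i, Continuous (G' i)) ∧ (∀ z ∈ S, ∀ i, G' i z = G i z) ∧
      (∀ i z, G' i z ≠ a i) ∧
      ∃ ε > 0, ∀ i j, i ≠ j → ∀ z, ¬ (‖(G' i z - a i).1‖ ≤ ε ∧ ‖(G' j z - a j).1‖ ≤ ε) := by
  obtain ⟨η, hη, hη'⟩ : ∃ η > 0, ∀ p : {p : ι × ι // p.1 ≠ p.2},
      η ≤ ‖(a p.1.1).1 - (a p.1.2).1‖ := exists_pos_le_finite fun p =>
    norm_pos_iff.mpr (sub_ne_zero.mpr fun h => p.2 (ha h))
  have hρ : ∀ i, ∃ ρ > 0, ∀ z, ρ ≤ ‖G i z - a i‖ := fun i =>
    exists_pos_le ((hG i).sub continuous_const).norm fun z =>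
      norm_pos_iff.mpr (sub_ne_zero.mpr (hGa i z))
  choose ρ' hρ' hρ'' using hρ
  obtain ⟨ρ, hρ0, hρ⟩ := exists_pos_le_finite hρ'
  -- the neighbourhood of `S` on which all `G i` are close
  set N : Set K := {z | ∀ i j, ‖G i z - G j z‖ < η / 4} with hN
  have hNo : IsOpen N := by
    have : N = ⋂ i, ⋂ j, {z | ‖G i z - G j z‖ < η / 4} := by ext z; simp [hN]
    rw [this]
    exact isOpen_iInter_of_finite fun i => isOpen_iInter_of_finite fun j =>
      isOpen_lt ((hG i).sub (hG j)).norm continuous_const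
  have hSN : S ⊆ N := fun z hz i j => by
    rw [hSG z hz i j, sub_self, norm_zero]; positivity
  obtain ⟨χ, hχS, hχN, hχ01⟩ := exists_continuous_zero_one_of_isClosed hS hNo.isClosed_compl
    (disjoint_compl_right_iff_subset.mpr hSN)
  set δ := min (η / 16) (ρ / 8) with hδ
  have hδ0 : 0 < δ := by positivity
  have hδη : δ ≤ η / 16 := min_le_left _ _
  have hδρ : δ ≤ ρ / 8 := min_le_right _ _
  have hl : ∀ i, ∃ (g : K → H) (C : NNReal), LipschitzWith C g ∧
      ∀ z, ‖g z - (G i z).1‖ ≤ δ := fun i => exists_lip (continuous_fst.comp (hG i)) hδ0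
  choose l C hlC hl using hl
  obtain ⟨v, hv, hv'⟩ := exists_generic (fun i => (a i).1)
    (fun i j => range fun z => (l i z, l j z))
    (fun i j => (pair_closed_dense hdim (hlC i) (hlC j)).1)
    (fun i j => (pair_closed_dense hdim (hlC i) (hlC j)).2) hδ0
  let G' : ι → K → H × ℝ := fun i z => G i z + (χ z • (l i z + v i - (G i z).1), 0)
  have hG' : ∀ i, Continuous (G' i) := fun i => by
    have h1 : Continuous (l i) := (hlC i).continuous
    have h2 : Continuous fun z => (G i z).1 := continuous_fst.comp (hG i)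
    have h3 : Continuous fun z => χ z • (l i z + v i - (G i z).1) :=
      χ.continuous.smul ((h1.add continuous_const).sub h2)
    exact (hG i).add (h3.prodMk continuous_const)
  have hclose : ∀ i z, ‖G' i z - G i z‖ ≤ 2 * δ := by
    intro i z
    have h1 : G' i z - G i z = (χ z • (l i z + v i - (G i z).1), 0) := by simp [G']
    rw [h1, Prod.norm_mk, norm_zero, norm_smul]
    have h2 : ‖χ z‖ ≤ 1 := by
      rw [Real.norm_eq_abs, abs_le]; exact ⟨by linarith [(hχ01 z).1], (hχ01 z).2⟩
    have h3 : ‖l i z + v i - (G i z).1‖ ≤ 2 * δ := by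
      have : l i z + v i - (G i z).1 = (l i z - (G i z).1) + v i := by abel
      rw [this]
      refine (norm_add_le _ _).trans ?_
      linarith [hl i z, hv i]
    refine max_le ?_ (by positivity)
    calc ‖χ z‖ * ‖l i z + v i - (G i z).1‖ ≤ 1 * (2 * δ) := by gcongr
      _ = 2 * δ := one_mul _
  refine ⟨G', hG', ?_, ?_, ?_⟩
  · intro z hz i
    have : χ z = 0 := hχS hz
    simp [G', this]
  · intro i z h
    have h1 := hρ'' i z
    have h2 := hclose i z
    rw [h, norm_sub_rev] at h2
    have h3 := hρ i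
    linarith
  · have hne : ∀ p : {p : ι × ι // p.1 ≠ p.2}, ∃ c > 0, ∀ z,
        c ≤ max ‖(G' p.1.1 z - a p.1.1).1‖ ‖(G' p.1.2 z - a p.1.2).1‖ := by
      rintro ⟨⟨i, j⟩, hij⟩
      simp only at hij ⊢
      refine exists_pos_le ?_ ?_
      · exact ((continuous_fst.comp ((hG' i).sub continuous_const)).norm).max
          ((continuous_fst.comp ((hG' j).sub continuous_const)).norm)
      · intro z
        by_contra hcon
        have h1 : ‖(G' i z - a i).1‖ ≤ 0 := (le_max_left _ _).trans (not_lt.mp hcon)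
        have h2 : ‖(G' j z - a j).1‖ ≤ 0 := (le_max_right _ _).trans (not_lt.mp hcon)
        have h1' : (G' i z).1 = (a i).1 := by
          have := norm_le_zero_iff.mp h1
          rwa [Prod.fst_sub, sub_eq_zero] at this
        have h2' : (G' j z).1 = (a j).1 := by
          have := norm_le_zero_iff.mp h2
          rwa [Prod.fst_sub, sub_eq_zero] at this
        by_cases hz : z ∈ N
        · have h3 : ‖(a i).1 - (a j).1‖ ≤ ‖G' i z - G' j z‖ := by
            rw [← h1', ← h2', ← Prod.fst_sub]
            exact norm_fst_le _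
          have h4 : ‖G' i z - G' j z‖ ≤ 2 * δ + η / 4 + 2 * δ := by
            have : G' i z - G' j z = (G' i z - G i z) + (G i z - G j z) - (G' j z - G j z) := by
              abel
            rw [this]
            refine (norm_sub_le _ _).trans (add_le_add ((norm_add_le _ _).trans
              (add_le_add (hclose i z) (hz i j).le)) (hclose j z))
          have h5 := hη' ⟨(i, j), hij⟩
          simp only at h5
          linarith
        · have hχ1 : χ z = 1 := hχN hz
          refine hv' i j hij ⟨z, ?_⟩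
          have e1 : (G' i z).1 = l i z + v i := by simp [G', hχ1]
          have e2 : (G' j z).1 = l j z + v j := by simp [G', hχ1]
          rw [← h1', ← h2', e1, e2]
          simp
    choose c hc hc' using hne
    obtain ⟨ε, hε, hεc⟩ := exists_pos_le_finite hc
    refine ⟨ε / 2, by positivity, ?_⟩
    rintro i j hij z ⟨h1, h2⟩
    have h3 := (hεc ⟨(i, j), hij⟩).trans (hc' ⟨(i, j), hij⟩ z)
    simp only at h3
    have := max_le h1 h2
    linarith

/-- Step 2: the construction. -/
theorem exists_of_disjoint {a : ι → H × ℝ} (ha : Function.Injective fun i => (a i).1)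
    {S : Set K} (hS : IsClosed S)
    {G : ι → K → H × ℝ} (hG : ∀ i, Continuous (G i)) (hSG : ∀ z ∈ S, ∀ i j, G i z = G j z)
    (hGa : ∀ i z, G i z ≠ a i) {ε : ℝ} (hε : 0 < ε)
    (hdis : ∀ i j, i ≠ j → ∀ z, ¬ (‖(G i z - a i).1‖ ≤ ε ∧ ‖(G j z - a j).1‖ ≤ ε)) (i₀ : ι) :
    ∃ F : K → H × ℝ, Continuous F ∧ (∀ z ∈ S, ∀ i, F z = G i z) ∧ ∀ z i, F z ≠ a i := by
  obtain ⟨η, hη, hη'⟩ : ∃ η > 0, ∀ p : {p : ι × ι // p.1 ≠ p.2},
      η ≤ ‖(a p.1.1).1 - (a p.1.2).1‖ := exists_pos_le_finite fun p =>
    norm_pos_iff.mpr (sub_ne_zero.mpr fun h => p.2 (ha h))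
  -- shrink `ε`
  wlog hεη : ε ≤ η with hw
  · exact hw ha hS hG hSG hGa (ε := min ε η) (by positivity)
      (fun i j hij z h => hdis i j hij z
        ⟨h.1.trans (min_le_left _ _), h.2.trans (min_le_left _ _)⟩) i₀ η hη hη'
      (min_le_right _ _)
  let d : ι → K → ℝ := fun i z => ‖(G i z - a i).1‖
  have hd : ∀ i, Continuous (d i) := fun i =>
    (continuous_fst.comp ((hG i).sub continuous_const)).norm
  have hd0 : ∀ i z, 0 ≤ d i z := fun i z => norm_nonneg _
  let φ : ι → K → ℝ := fun i z => max 0 (min 1 (2 - 2 * d i z / ε))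
  have hφ : ∀ i, Continuous (φ i) := fun i =>
    continuous_const.max (continuous_const.min
      (continuous_const.sub ((continuous_const.mul (hd i)).div_const _)))
  have hφ1 : ∀ i z, d i z ≤ ε / 2 → φ i z = 1 := by
    intro i z h
    have : 2 * d i z / ε ≤ 1 := by rw [div_le_one hε]; linarith
    show max 0 (min 1 (2 - 2 * d i z / ε)) = 1
    rw [min_eq_left (by linarith), max_eq_right zero_le_one]
  have hφ0 : ∀ i z, ε ≤ d i z → φ i z = 0 := by
    intro i z h
    have : 2 ≤ 2 * d i z / ε := by rw [le_div_iff₀ hε]; linarith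
    show max 0 (min 1 (2 - 2 * d i z / ε)) = 0
    rw [max_eq_left]
    exact (min_le_right _ _).trans (by linarith)
  let Q : K → H × ℝ := fun z => G i₀ z + ∑ i, φ i z • (G i z - G i₀ z)
  have hQ : Continuous Q := (hG i₀).add
    (continuous_finsetSum _ fun i _ => (hφ i).smul ((hG i).sub (hG i₀)))
  have hQS : ∀ z ∈ S, ∀ i, Q z = G i z := by
    intro z hz i
    have : ∑ j, φ j z • (G j z - G i₀ z) = 0 := Finset.sum_eq_zero fun j _ => by
      rw [hSG z hz j i₀, sub_self, smul_zero]
    show G i₀ z + _ = _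
    rw [this, add_zero, hSG z hz i₀ i]
  have hQZ : ∀ z i, d i z ≤ ε / 2 → Q z = G i z := by
    intro z i h
    show G i₀ z + ∑ j, φ j z • (G j z - G i₀ z) = _
    rw [Finset.sum_eq_single i, hφ1 i z h, one_smul]
    · abel
    · intro j _ hj
      have : ε < d j z := by
        by_contra hcon
        exact hdis j i hj z ⟨not_lt.mp hcon, h.trans (by linarith)⟩
      rw [hφ0 j z this.le, zero_smul]
    · simp
  let lam : K → ℝ := fun z => ∏ i, min 1 (2 * d i z / ε)
  have hlam : Continuous lam := continuous_finsetProd _ fun i _ =>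
    continuous_const.min ((continuous_const.mul (hd i)).div_const _)
  have hlam1 : ∀ z, (∀ i, ε / 2 ≤ d i z) → lam z = 1 := by
    intro z h
    refine Finset.prod_eq_one fun i _ => min_eq_left ?_
    rw [le_div_iff₀ hε]; linarith [h i]
  have hlam0 : ∀ z i, d i z = 0 → lam z = 0 := by
    intro z i h
    refine Finset.prod_eq_zero (Finset.mem_univ i) ?_
    rw [h, mul_zero, zero_div]
    exact min_eq_right zero_le_one
  -- the set where we must be pushed down completely
  set K₀ : Set K := {z | ∀ i, ε / 2 ≤ d i z} with hK₀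
  have hK₀c : IsClosed K₀ := by
    have : K₀ = ⋂ i, {z | ε / 2 ≤ d i z} := by ext z; simp [hK₀]
    rw [this]
    exact isClosed_iInter fun i => isClosed_le continuous_const (hd i)
  set N : Set K := {z | ∀ i, ε / 4 < ‖(Q z - a i).1‖} with hN
  have hNo : IsOpen N := by
    have : N = ⋂ i, {z | ε / 4 < ‖(Q z - a i).1‖} := by ext z; simp [hN]
    rw [this]
    exact isOpen_iInter_of_finite fun i => isOpen_lt continuous_const
      (continuous_fst.comp (hQ.sub continuous_const)).norm
  have hdisj : Disjoint S (K₀ ∩ Nᶜ) := by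
    rw [Set.disjoint_left]
    rintro z hz ⟨h1, h2⟩
    refine h2 fun i => ?_
    rw [hQS z hz i]
    have := h1 i
    have h3 : d i z = ‖(G i z - a i).1‖ := rfl
    rw [← h3]; linarith
  obtain ⟨t, htS, htC, ht01⟩ := exists_continuous_zero_one_of_isClosed hS
    (hK₀c.inter hNo.isClosed_compl) hdisj
  obtain ⟨B, hB⟩ : ∃ B : ℝ, ∀ z i, |(Q z).2 - (a i).2| < B := by
    have h1 : ∀ i, ∃ B : ℝ, ∀ z, |(Q z).2 - (a i).2| < B := by
      intro i
      have hc : Continuous fun z => |(Q z).2 - (a i).2| :=
        ((continuous_snd.comp hQ).sub continuous_const).abs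
      obtain ⟨B, hB⟩ := (isCompact_range hc).bddAbove
      exact ⟨B + 1, fun z => (hB ⟨z, rfl⟩).trans_lt (by linarith)⟩
    choose B hB using h1
    refine ⟨∑ i, |B i| + 1, fun z i => (hB i z).trans_le ?_⟩
    have := Finset.single_le_sum (f := fun i => |B i|) (fun i _ => abs_nonneg _)
      (Finset.mem_univ i)
    linarith [le_abs_self (B i)]
  refine ⟨fun z => Q z - ((0 : H), t z * lam z * B), ?_, ?_, ?_⟩
  · exact hQ.sub (continuous_const.prodMk ((t.continuous.mul hlam).mul continuous_const))
  · intro z hz i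
    have h1 : t z = 0 := htS hz
    show Q z - ((0 : H), t z * lam z * B) = G i z
    rw [h1, hQS z hz i]
    simp
  · intro z i h
    simp only at h
    have e1 : (Q z).1 = (a i).1 := by
      have := congrArg Prod.fst h
      simpa using this
    have e2 : (Q z).2 - t z * lam z * B = (a i).2 := by
      have := congrArg Prod.snd h
      simpa using this
    by_cases hz : z ∈ K₀
    · by_cases hzN : z ∈ N
      · have := hzN i
        rw [Prod.fst_sub, e1, sub_self, norm_zero] at this
        linarith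
      · have ht1 : t z = 1 := htC ⟨hz, hzN⟩
        rw [ht1, hlam1 z hz, one_mul, one_mul] at e2
        have h1 := hB z i
        have h2 : (Q z).2 - (a i).2 = B := by linarith
        rw [h2] at h1
        exact (lt_irrefl _ ((le_abs_self B).trans_lt h1))
    · simp only [hK₀, mem_ofPred_eq, not_forall, not_le] at hz
      obtain ⟨j, hj⟩ := hz
      have hQj := hQZ z j hj.le
      by_cases hij : j = i
      · subst hij
        have h0 : d j z = 0 := by
          show ‖(G j z - a j).1‖ = 0
          rw [Prod.fst_sub, ← hQj, e1, sub_self, norm_zero]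
        rw [hlam0 z j h0, mul_zero, zero_mul, sub_zero] at e2
        refine hGa j z ?_
        rw [← hQj]
        exact Prod.ext e1 e2
      · have h1 := hη' ⟨(j, i), hij⟩
        simp only at h1
        have h2 : d j z = ‖(a i).1 - (a j).1‖ := by
          show ‖(G j z - a j).1‖ = _
          rw [Prod.fst_sub, ← hQj, e1]
        rw [norm_sub_rev, ← h2] at h1
        linarith

/-- **Lemma W** in `H × ℝ` for points with different first coordinates. -/
theorem lemmaW_aux (hdim : dimH (univ : Set K) < 2 * Module.finrank ℝ H)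
    {a : ι → H × ℝ} (ha : Function.Injective fun i => (a i).1) {S : Set K} (hS : IsClosed S)
    {G : ι → K → H × ℝ} (hG : ∀ i, Continuous (G i)) (hSG : ∀ z ∈ S, ∀ i j, G i z = G j z)
    (hGa : ∀ i z, G i z ≠ a i) :
    ∃ F : K → H × ℝ, Continuous F ∧ (∀ z ∈ S, ∀ i, F z = G i z) ∧ ∀ z i, F z ≠ a i := by
  rcases isEmpty_or_nonempty ι with hι | ⟨⟨i₀⟩⟩
  · exact ⟨fun _ => 0, continuous_const, fun z _ i => (hι.false i).elim,
      fun z i => (hι.false i).elim⟩
  · obtain ⟨G', h1, h2, h3, ε, hε, h4⟩ := exists_disjoint hdim ha hS hG hSG hGa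
    obtain ⟨F, hF, hFS, hFa⟩ := exists_of_disjoint ha hS h1
      (fun z hz i j => by rw [h2 z hz i, h2 z hz j, hSG z hz i j]) h3 hε h4 i₀
    exact ⟨F, hF, fun z hz i => by rw [hFS z hz i, h2 z hz i], hFa⟩

/-- A shear makes the first coordinates different. -/
theorem exists_shear {a : ι → H × ℝ} (ha : Function.Injective a)
    (hH : 0 < Module.finrank ℝ H) :
    ∃ u : H, Function.Injective fun i => (a i).1 + (a i).2 • u := by
  have hnt : Nontrivial H := Module.finrank_pos_iff.mp hH
  have hinf : Infinite H := Module.Free.infinite ℝ H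
  let bad : Set H := ⋃ p : ι × ι, {(-((a p.1).2 - (a p.2).2)⁻¹) • ((a p.1).1 - (a p.2).1)}
  have hbad : bad.Finite := Set.finite_iUnion fun p => Set.finite_singleton _
  obtain ⟨u, hu⟩ := hbad.infinite_compl.nonempty
  refine ⟨u, fun i j hij => ?_⟩
  by_contra hne
  simp only at hij
  by_cases h2 : (a i).2 = (a j).2
  · rw [h2, add_left_inj] at hij
    exact hne (ha (Prod.ext hij h2))
  · refine hu (mem_iUnion.mpr ⟨(i, j), ?_⟩)
    rw [mem_singleton_iff]
    have h3 : (a i).2 - (a j).2 ≠ 0 := sub_ne_zero.mpr h2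
    have h4 : (a i).1 - (a j).1 = -(((a i).2 - (a j).2) • u) := by
      rw [sub_smul]
      have : (a i).1 = (a j).1 + (a j).2 • u - (a i).2 • u := by rw [← hij]; abel
      rw [this]; abel
    simp only
    rw [h4, smul_neg, neg_smul, neg_neg, smul_smul, inv_mul_cancel₀ h3, one_smul]

variable {V : Type*} [NormedAddCommGroup V] [NormedSpace ℝ V] [FiniteDimensional ℝ V]

/-- **Lemma W.** Let `K` be a compact metric space of dimension `< 2 m`, `dim V = m + 1`. If maps
`G i : K → V`, `G i` avoiding `a i`, coincide on the closed set `S`, then there is a map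
`F : K → V` avoiding all the `a i`, equal to the `G i` on `S`. -/
theorem lemmaW {m : ℕ} (hm : 0 < m) (hV : Module.finrank ℝ V = m + 1)
    (hdim : dimH (univ : Set K) < 2 * m)
    {a : ι → V} (ha : Function.Injective a) {S : Set K} (hS : IsClosed S)
    {G : ι → K → V} (hG : ∀ i, Continuous (G i)) (hSG : ∀ z ∈ S, ∀ i j, G i z = G j z)
    (hGa : ∀ i z, G i z ≠ a i) :
    ∃ F : K → V, Continuous F ∧ (∀ z ∈ S, ∀ i, F z = G i z) ∧ ∀ z i, F z ≠ a i := by
  let e : V ≃L[ℝ] (Fin m → ℝ) × ℝ := ContinuousLinearEquiv.ofFinrankEq (by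
    rw [hV, Module.finrank_prod]; simp)
  have hea : Function.Injective fun i => e (a i) := e.injective.comp ha
  obtain ⟨u, hu⟩ := exists_shear hea (by simpa using hm)
  -- the shear as a linear equivalence
  let s : ((Fin m → ℝ) × ℝ) ≃L[ℝ] ((Fin m → ℝ) × ℝ) :=
    LinearEquiv.toContinuousLinearEquiv
      { toFun := fun p => (p.1 + p.2 • u, p.2)
        invFun := fun p => (p.1 - p.2 • u, p.2)
        map_add' := fun p q => by
          simp only [Prod.fst_add, Prod.snd_add, add_smul, Prod.mk_add_mk]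
          congr 1; abel
        map_smul' := fun c p => by
          simp only [Prod.smul_fst, Prod.smul_snd, smul_eq_mul, RingHom.id_apply, mul_smul,
            Prod.smul_mk, smul_add]
        left_inv := fun p => by simp
        right_inv := fun p => by simp }
  let E : V ≃L[ℝ] (Fin m → ℝ) × ℝ := e.trans s
  have hE : ∀ v, E v = ((e v).1 + (e v).2 • u, (e v).2) := fun v => rfl
  obtain ⟨F, hF, hFS, hFa⟩ := lemmaW_aux (K := K) (H := Fin m → ℝ) (a := fun i => E (a i))
    (by simpa using hdim) hu hS (G := fun i z => E (G i z))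
    (fun i => E.continuous.comp (hG i)) (fun z hz i j => by rw [hSG z hz i j])
    (fun i z h => hGa i z (E.injective h))
  refine ⟨fun z => E.symm (F z), E.symm.continuous.comp hF, fun z hz i => ?_, fun z i h => ?_⟩
  · show E.symm (F z) = G i z
    rw [hFS z hz i, E.symm_apply_apply]
  · refine hFa z i ?_
    have h' : E.symm (F z) = a i := h
    rw [← h', E.apply_symm_apply]

end Vale.Agent.P268.T.W196
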